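import Mathlib

/-!
Potential theory for the Dirichlet Gaussian free field in a bounded open set `D` of the plane.
`V D φ` is the quadratic form `⟨φ, (-Δ_D)⁻¹ φ⟩` of the inverse of the Dirichlet Laplacian, in its
variational form.
-/

namespace Vale.Agent.P145.PT

open MeasureTheory Set Filter Topology

/-- Smooth functions with compact support contained in `D`. -/
def TestOn (D : Set (ℝ × ℝ)) (φ : ℝ × ℝ → ℝ) : Prop :=
  ContDiff ℝ ((⊤ : ℕ∞) : WithTop ℕ∞) φ ∧ HasCompactSupport φ ∧ tsupport φ ⊆ D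

/-- Partial derivative in the first coordinate. -/
noncomputable def dx (ψ : ℝ × ℝ → ℝ) (z : ℝ × ℝ) : ℝ := fderiv ℝ ψ z (1, 0)

/-- Partial derivative in the second coordinate. -/
noncomputable def dy (ψ : ℝ × ℝ → ℝ) (z : ℝ × ℝ) : ℝ := fderiv ℝ ψ z (0, 1)

/-- The Laplacian. -/
noncomputable def lap (ψ : ℝ × ℝ → ℝ) (z : ℝ × ℝ) : ℝ := dx (dx ψ) z + dy (dy ψ) z

/-- The Dirichlet energy `∫ |∇ψ|²`. -/
noncomputable def energy (ψ : ℝ × ℝ → ℝ) : ℝ := ∫ z, (dx ψ z ^ 2 + dy ψ z ^ 2)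

/-- `⟨φ, (-Δ_D)⁻¹ φ⟩ = sup_ψ (2 ∫ φ ψ - ∫ |∇ψ|²)`, `ψ` smooth with compact support in `D`. -/
noncomputable def V (D : Set (ℝ × ℝ)) (φ : ℝ × ℝ → ℝ) : ℝ :=
  ⨆ ψ : {ψ : ℝ × ℝ → ℝ // TestOn D ψ}, (2 * ∫ z, φ z * ψ.1 z) - energy ψ.1

end Vale.Agent.P145.PT
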