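import Mathlib

/-!
The set enclosed by a closed set `T` (bounded components of the complement), and the geometric
facts on polygonal approximations of a Jordan domain.
-/

namespace Vale.Agent.P145.PT

open Set Filter Topology Metric Bornology

section enclosed

variable {X : Type*} [PseudoMetricSpace X]

/-- The points enclosed by `T`: the points outside `T` whose connected component in the
complement of `T` is bounded. -/
def enclosed (T : Set X) : Set X :=
  {z | z ∉ T ∧ IsBounded (connectedComponentIn Tᶜ z)}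

theorem enclosed_disjoint (T : Set X) : Disjoint (enclosed T) T :=
  Set.disjoint_left.2 fun _ hz hT => hz.1 hT

theorem enclosed_subset_compl (T : Set X) : enclosed T ⊆ Tᶜ := fun _ hz => hz.1

/-- A preconnected set disjoint from `T` is contained in `enclosed T` as soon as it meets it. -/
theorem subset_enclosed_of_mem {T S : Set X} (hS : IsPreconnected S) (hST : S ⊆ Tᶜ) {z : X}
    (hz : z ∈ S) (hzT : z ∈ enclosed T) : S ⊆ enclosed T := by
  intro x hx
  have h1 : S ⊆ connectedComponentIn Tᶜ z := hS.subset_connectedComponentIn hz hST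
  have h2 : connectedComponentIn Tᶜ x = connectedComponentIn Tᶜ z :=
    (connectedComponentIn_eq (h1 hx)).symm
  exact ⟨fun h => hST hx h, by rw [h2]; exact hzT.2⟩

theorem subset_enclosed_or_disjoint {T S : Set X} (hS : IsPreconnected S) (hST : S ⊆ Tᶜ) :
    S ⊆ enclosed T ∨ Disjoint S (enclosed T) := by
  by_cases h : ∃ z ∈ S, z ∈ enclosed T
  · obtain ⟨z, hz, hzT⟩ := h
    exact Or.inl (subset_enclosed_of_mem hS hST hz hzT)
  · right
    rw [Set.disjoint_left]
    intro z hz hzT
    exact h ⟨z, hz, hzT⟩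

/-- A point which can be joined outside `T` to an unbounded preconnected set is not enclosed. -/
theorem not_mem_enclosed {T S : Set X} (hS : IsPreconnected S) (hST : S ⊆ Tᶜ)
    (hb : ¬ IsBounded S) {z : X} (hz : z ∈ S) : z ∉ enclosed T := fun h =>
  hb (h.2.subset (hS.subset_connectedComponentIn hz hST))

end enclosed

section normed

variable {E : Type*} [NormedAddCommGroup E] [NormedSpace ℝ E]

theorem isOpen_enclosed {T : Set E} (hT : IsClosed T) : IsOpen (enclosed T) := by
  rw [isOpen_iff_mem_nhds]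
  intro z hz
  have h1 : connectedComponentIn Tᶜ z ∈ 𝓝 z :=
    (hT.isOpen_compl.connectedComponentIn).mem_nhds (mem_connectedComponentIn hz.1)
  refine Filter.mem_of_superset h1 ?_
  exact subset_enclosed_of_mem isPreconnected_connectedComponentIn
    (connectedComponentIn_subset _ _) (mem_connectedComponentIn hz.1) hz

/-- The ray `{c • w : 1 ≤ c}`, `w ≠ 0`, is unbounded. -/
theorem not_isBounded_ray {w : E} (hw : w ≠ 0) :
    ¬ IsBounded ((fun c : ℝ => c • w) '' Ici (1 : ℝ)) := by
  intro h
  obtain ⟨R, hR⟩ := h.exists_norm_le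
  have hw' : 0 < ‖w‖ := norm_pos_iff.2 hw
  have h0 : 0 ≤ R := by
    have := hR ((1 : ℝ) • w) ⟨1, self_mem_Ici, rfl⟩
    exact (norm_nonneg _).trans this
  have h1 : (1 : ℝ) ≤ R / ‖w‖ + 1 := by
    have : 0 ≤ R / ‖w‖ := div_nonneg h0 hw'.le
    linarith
  have h2 := hR ((R / ‖w‖ + 1) • w) ⟨R / ‖w‖ + 1, h1, rfl⟩
  rw [norm_smul, Real.norm_of_nonneg (by linarith), add_mul, div_mul_cancel₀ _ hw'.ne'] at h2
  linarith

theorem isPreconnected_ray (w : E) : IsPreconnected ((fun c : ℝ => c • w) '' Ici (1 : ℝ)) :=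
  isPreconnected_Ici.image _ (by fun_prop)

/-- A set contained in a closed ball encloses only points of this ball. -/
theorem enclosed_subset_closedBall {T : Set E} {R : ℝ} (hR : 0 ≤ R)
    (hT : T ⊆ closedBall (0 : E) R) : enclosed T ⊆ closedBall (0 : E) R := by
  intro z hz
  by_contra hz'
  rw [mem_closedBall_zero_iff, not_le] at hz'
  have hz0 : z ≠ 0 := by
    rintro rfl
    rw [norm_zero] at hz'
    linarith
  refine not_mem_enclosed (isPreconnected_ray z) ?_ (not_isBounded_ray hz0)
    (⟨1, self_mem_Ici, one_smul _ _⟩ : z ∈ (fun c : ℝ => c • z) '' Ici (1 : ℝ)) hz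
  rintro _ ⟨c, hc, rfl⟩ hcT
  have h1 := mem_closedBall_zero_iff.1 (hT hcT)
  have hc' : (1 : ℝ) ≤ c := hc
  rw [norm_smul, Real.norm_of_nonneg (by linarith)] at h1
  nlinarith [norm_nonneg z]

theorem isBounded_enclosed {T : Set E} (hT : IsBounded T) : IsBounded (enclosed T) := by
  obtain ⟨R, hR⟩ := hT.subset_closedBall (0 : E)
  have h : T ⊆ closedBall (0 : E) (max R 0) :=
    hR.trans (closedBall_subset_closedBall (le_max_left _ _))
  exact isBounded_closedBall.subset (enclosed_subset_closedBall (le_max_right _ _) h)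

/-- `D` is the image of the open unit ball under a homeomorphism of the whole space. -/
theorem frontier_image_ball [Nontrivial E] (Φ : E ≃ₜ E) :
    frontier (Φ '' ball (0 : E) 1) = Φ '' sphere (0 : E) 1 := by
  rw [← Φ.image_frontier, frontier_ball _ one_ne_zero]

variable [ProperSpace E]

/-- **(PT4)** If the closed curve `T` is close to the boundary of the Jordan domain `D` then the
set enclosed by `T` is contained in a small neighbourhood of `D`. -/
theorem enclosed_subset_thickening [Nontrivial E] (Φ : E ≃ₜ E) {s : ℝ} (hs : 0 < s) :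
    ∃ ε : ℝ, 0 < ε ∧ ∀ T : Set E, T ⊆ thickening ε (frontier (Φ '' ball (0 : E) 1)) →
      enclosed T ⊆ thickening s (Φ '' ball (0 : E) 1) := by
  set U : Set E := thickening s (Φ '' ball (0 : E) 1) with hU
  have hUo : IsOpen U := isOpen_thickening
  have hcl : Φ '' closedBall (0 : E) 1 ⊆ U := by
    rw [← closure_ball (0 : E) one_ne_zero, Φ.image_closure]
    exact closure_subset_thickening hs _
  have hcl' : closedBall (0 : E) 1 ⊆ Φ ⁻¹' U := image_subset_iff.1 hcl
  obtain ⟨δ, hδ, hδU⟩ := (isCompact_closedBall (0 : E) 1).exists_thickening_subset_open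
    (hUo.preimage Φ.continuous) hcl'
  rw [thickening_closedBall hδ zero_le_one] at hδU
  set C : Set E := Φ '' (ball (0 : E) (δ + 1))ᶜ with hC
  have hCc : IsClosed C := Φ.isClosedMap _ isOpen_ball.isClosed_compl
  have hF : IsCompact (Φ '' sphere (0 : E) 1) := (isCompact_sphere 0 1).image Φ.continuous
  have hdis : Disjoint (Φ '' sphere (0 : E) 1) C := by
    rw [hC, disjoint_image_iff Φ.injective, Set.disjoint_left]
    intro x hx hx'
    rw [mem_sphere_zero_iff_norm] at hx
    rw [mem_compl_iff, mem_ball_zero_iff, not_lt] at hx'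
    linarith
  obtain ⟨ε, hε, hεd⟩ := hdis.exists_thickenings hF hCc
  refine ⟨ε, hε, fun T hT z hz => ?_⟩
  rw [frontier_image_ball] at hT
  by_contra hzU
  set w : E := Φ.symm z with hw
  have hwz : Φ w = z := Φ.apply_symm_apply z
  have hwn : δ + 1 ≤ ‖w‖ := by
    by_contra h
    rw [not_le] at h
    have : w ∈ Φ ⁻¹' U := hδU (mem_ball_zero_iff.2 h)
    rw [mem_preimage, hwz] at this
    exact hzU this
  have hw0 : w ≠ 0 := by
    rw [← norm_pos_iff]
    linarith
  set R : Set E := (fun c : ℝ => c • w) '' Ici (1 : ℝ) with hR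
  have hRC : Φ '' R ⊆ C := by
    rw [hC]
    refine image_mono ?_
    rintro _ ⟨c, hc, rfl⟩
    have hc' : (1 : ℝ) ≤ c := hc
    rw [mem_compl_iff, mem_ball_zero_iff, not_lt]
    simp only
    rw [norm_smul, Real.norm_of_nonneg (by linarith)]
    nlinarith
  have hRT : Φ '' R ⊆ Tᶜ := by
    intro x hx hxT
    have h1 : x ∈ thickening ε (Φ '' sphere (0 : E) 1) := hT hxT
    have h2 : x ∈ thickening ε C := self_subset_thickening hε _ (hRC hx)
    exact Set.disjoint_left.1 hεd h1 h2
  refine not_mem_enclosed ((isPreconnected_ray w).image Φ Φ.continuous.continuousOn) hRT ?_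
    (⟨w, ⟨1, self_mem_Ici, one_smul _ _⟩, hwz⟩ : z ∈ Φ '' R) hz
  intro hb
  have h1 : IsCompact (Φ.symm '' closure (Φ '' R)) :=
    (hb.isCompact_closure).image Φ.symm.continuous
  refine not_isBounded_ray hw0 (h1.isBounded.subset ?_)
  intro x hx
  exact ⟨Φ x, subset_closure ⟨x, hx, rfl⟩, Φ.symm_apply_apply x⟩

/-- Filter version of (PT4). -/
theorem eventually_enclosed_subset_thickening [Nontrivial E] (Φ : E ≃ₜ E) {ι : Type*}
    {l : Filter ι} {T : ι → Set E}
    (hT : ∀ ε : ℝ, 0 < ε → ∀ᶠ i in l, T i ⊆ thickening ε (frontier (Φ '' ball (0 : E) 1)))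
    {s : ℝ} (hs : 0 < s) : ∀ᶠ i in l, enclosed (T i) ⊆ thickening s (Φ '' ball (0 : E) 1) := by
  obtain ⟨ε, hε, h⟩ := enclosed_subset_thickening Φ hs
  exact (hT ε hε).mono fun i hi => h _ hi

end normed

end Vale.Agent.P145.PT
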