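import Vale.Agent.P145.PT.Stab

/-!
The exterior condition holds for the image of the unit disc under a homeomorphism of the plane, and
the stability theorem for Jordan domains.
-/

namespace Vale.Agent.P145.PT

open MeasureTheory Set Filter Topology

/-- Euclidean norm. -/
noncomputable def en (w : ℝ × ℝ) : ℝ := Real.sqrt (sqn w)

theorem en_cont : Continuous en := Real.continuous_sqrt.comp sqn_smooth.continuous

theorem en_nonneg (w : ℝ × ℝ) : 0 ≤ en w := Real.sqrt_nonneg _

theorem norm_le_en (w : ℝ × ℝ) : ‖w‖ ≤ en w :=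
  norm_le_of_sqn (en_nonneg w) (by unfold en; rw [Real.sq_sqrt (sqn_nonneg w)])

theorem en_smul {c : ℝ} (hc : 0 ≤ c) (w : ℝ × ℝ) : en (c • w) = c * en w := by
  unfold en
  have : sqn (c • w) = c ^ 2 * sqn w := by
    unfold sqn; simp only [Prod.smul_fst, Prod.smul_snd, smul_eq_mul]; ring
  rw [this, Real.sqrt_mul (sq_nonneg c), Real.sqrt_sq hc]

theorem isCompact_en (r : ℝ) : IsCompact {w : ℝ × ℝ | en w ≤ r} := by
  refine (isCompact_closedBall (0 : ℝ × ℝ) r).of_isClosed_subset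
    (isClosed_le en_cont continuous_const) fun w hw => ?_
  rw [mem_closedBall_zero_iff]
  exact (norm_le_en w).trans hw

/-- The open unit disc. -/
def disc : Set (ℝ × ℝ) := {z | z.1 ^ 2 + z.2 ^ 2 < 1}

theorem mem_disc (w : ℝ × ℝ) : w ∈ disc ↔ en w < 1 := by
  unfold disc en
  rw [Real.sqrt_lt' one_pos, one_pow]
  rfl

theorem isOpen_disc : IsOpen disc := by
  have : disc = {w | en w < 1} := Set.ext mem_disc
  rw [this]; exact isOpen_lt en_cont continuous_const

theorem jordan_isOpen (Φ : (ℝ × ℝ) ≃ₜ (ℝ × ℝ)) : IsOpen (Φ '' disc) :=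
  Φ.isOpenMap _ isOpen_disc

theorem jordan_isBounded (Φ : (ℝ × ℝ) ≃ₜ (ℝ × ℝ)) : Bornology.IsBounded (Φ '' disc) := by
  refine ((isCompact_en 1).image Φ.continuous).isBounded.subset (image_mono fun w hw => ?_)
  exact ((mem_disc w).1 hw).le

theorem jordan_ext (Φ : (ℝ × ℝ) ≃ₜ (ℝ × ℝ)) : Ext (Φ '' disc) := by
  intro R hR
  -- uniform continuity on the disc of radius 2
  have huc : UniformContinuousOn Φ {w : ℝ × ℝ | en w ≤ 2} :=
    (isCompact_en 2).uniformContinuousOn_of_continuous Φ.continuous.continuousOn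
  rw [Metric.uniformContinuousOn_iff] at huc
  obtain ⟨δ₀, hδ₀, hδ⟩ := huc (R / 4) (by positivity)
  set δ := min δ₀ 1 with hδd
  have hδ0 : 0 < δ := lt_min hδ₀ one_pos
  -- the thickening
  set U : Set (ℝ × ℝ) := Φ '' {w | en w < 1 + δ} with hU
  have hUo : IsOpen U := Φ.isOpenMap _ (isOpen_lt en_cont continuous_const)
  have hK : IsCompact (Φ '' {w : ℝ × ℝ | en w ≤ 1}) := (isCompact_en 1).image Φ.continuous
  obtain ⟨s, hs, hsU⟩ := hK.exists_thickening_subset_open hUo
    (image_mono fun w hw => by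
      have h : en w ≤ 1 := hw
      change en w < 1 + δ
      linarith)
  have hsD : Metric.thickening s (Φ '' disc) ⊆ U := by
    refine (Metric.thickening_subset_of_subset s (image_mono fun w hw => ?_)).trans hsU
    exact ((mem_disc w).1 hw).le
  refine ⟨s, hs, R / 8, by positivity, fun x hx hxd r hr => ?_⟩
  -- a point of the complement
  have hne : ((Φ '' disc)ᶜ).Nonempty := compl_ne (jordan_isBounded Φ)
  obtain ⟨z, hz, hxz⟩ := (Metric.infDist_lt_iff hne).1 hxd
  set w := Φ.symm z with hw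
  have hwz : Φ w = z := Φ.apply_symm_apply z
  have hw1 : 1 ≤ en w := by
    by_contra h
    push Not at h
    exact hz ⟨w, (mem_disc w).2 h, hwz⟩
  -- the path to infinity
  set f : ℝ → ℝ := fun c => sqn (Φ (c • w) - x) with hf
  have hfc : Continuous f := sqn_smooth.continuous.comp
    ((Φ.continuous.comp (continuous_id.smul continuous_const)).sub continuous_const)
  have hf1 : f 1 ≤ r ^ 2 := by
    rw [hf]; simp only [one_smul]; rw [hwz]
    have h1 := sqn_le_of_norm (z - x)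
    rw [← dist_eq_norm, dist_comm] at h1
    have h2 : dist x z ^ 2 ≤ (R / 8) ^ 2 := pow_le_pow_left₀ dist_nonneg hxz.le 2
    nlinarith
  obtain ⟨c₁, hc₁, hfc₁⟩ : ∃ c : ℝ, 1 ≤ c ∧ r ^ 2 ≤ f c := by
    by_contra hcon
    push Not at hcon
    have hr0 : 0 ≤ r := hR.le.trans hr
    -- then the ray stays in a compact set
    have hcomp : IsCompact (Φ.symm '' Metric.closedBall x r) :=
      (isCompact_closedBall x r).image Φ.symm.continuous
    obtain ⟨B, hB⟩ := hcomp.isBounded.exists_norm_le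
    have hmem : ∀ c : ℝ, 1 ≤ c → ‖c • w‖ ≤ B := by
      intro c hc
      refine hB _ ⟨Φ (c • w), ?_, Φ.symm_apply_apply _⟩
      rw [Metric.mem_closedBall, dist_eq_norm]
      have h1 := hcon c hc
      have h2 := (norm_sq_le_sqn (Φ (c • w) - x)).trans_lt h1
      exact (lt_of_pow_lt_pow_left₀ 2 hr0 h2).le
    have hwn : 0 < ‖w‖ := by
      rw [norm_pos_iff]
      rintro h0
      rw [h0] at hw1
      unfold en sqn at hw1
      simp at hw1
      linarith
    have hB0 : 0 ≤ B := (norm_nonneg _).trans (hmem 1 le_rfl)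
    have h1 := hmem (B / ‖w‖ + 1) (by
      have : 0 ≤ B / ‖w‖ := div_nonneg hB0 hwn.le
      linarith)
    rw [norm_smul, Real.norm_of_nonneg (by
      have : 0 ≤ B / ‖w‖ := div_nonneg hB0 hwn.le
      linarith), add_mul, div_mul_cancel₀ _ hwn.ne'] at h1
    linarith
  obtain ⟨c, hc, hcr⟩ := intermediate_value_Icc hc₁ hfc.continuousOn ⟨hf1, hfc₁⟩
  refine ⟨Φ (c • w), hcr, fun hp => ?_⟩
  have hc0 : 0 ≤ c := by linarith [hc.1]
  obtain ⟨w', hw', hww'⟩ := hsD hp
  have hcw : en (c • w) < 1 + δ := by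
    have : w' = c • w := Φ.injective hww'
    rw [← this]; exact hw'
  rw [en_smul hc0] at hcw
  have hδ1 : δ ≤ 1 := min_le_right _ _
  have hdist : dist (c • w) w < δ₀ := by
    rw [dist_eq_norm]
    have : c • w - w = (c - 1) • w := by rw [sub_smul, one_smul]
    rw [this, norm_smul, Real.norm_of_nonneg (by linarith [hc.1])]
    have h1 := norm_le_en w
    have h2 : (c - 1) * ‖w‖ ≤ (c - 1) * en w :=
      mul_le_mul_of_nonneg_left h1 (by linarith [hc.1])
    have h3 : δ ≤ δ₀ := min_le_left _ _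
    nlinarith
  have h1 := hδ (c • w) (by
      rw [mem_ofPred_eq, en_smul hc0]; linarith) w (by
      rw [mem_ofPred_eq]
      have : en w ≤ c * en w := by nlinarith [en_nonneg w, hc.1]
      linarith) hdist
  rw [hwz] at h1
  -- contradiction: far from x
  have h2 : R / 2 ≤ ‖Φ (c • w) - x‖ := by
    have h3 := sqn_le_of_norm (Φ (c • w) - x)
    have h4 : r ^ 2 ≤ 2 * ‖Φ (c • w) - x‖ ^ 2 := by
      have : f c = r ^ 2 := hcr
      rw [← this]; exact h3
    by_contra h
    push Not at h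
    have h5 : ‖Φ (c • w) - x‖ ^ 2 < (R / 2) ^ 2 :=
      pow_lt_pow_left₀ h (norm_nonneg _) two_ne_zero
    nlinarith
  rw [← dist_eq_norm] at h2
  have h6 := dist_triangle (Φ (c • w)) z x
  rw [dist_comm z x] at h6
  linarith

/-- Stability of Jordan domains. -/
theorem jordan_stab (Φ : (ℝ × ℝ) ≃ₜ (ℝ × ℝ)) {φ : ℝ × ℝ → ℝ} (hφ : TestOn (Φ '' disc) φ)
    (hφ0 : ∀ z, 0 ≤ φ z) {η : ℝ} (hη : 0 < η) :
    ∃ s : ℝ, 0 < s ∧ V (Metric.thickening s (Φ '' disc)) φ ≤ V (Φ '' disc) φ + η :=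
  stab (jordan_isOpen Φ) (jordan_isBounded Φ) (jordan_ext Φ) hφ hφ0 hη

end Vale.Agent.P145.PT
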