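import Vale.Agent.P145.PT.Basic

/-!
Poincaré inequality on bounded sets; `V D φ` is finite for bounded `D`; first properties of `V`.
-/

namespace Vale.Agent.P145.PT

open MeasureTheory Set Filter Topology

theorem dx_fst (z : ℝ × ℝ) : dx (fun z => z.1) z = 1 := by
  unfold dx; rw [fderiv_fst]; rfl

/-- Poincaré: if `ψ` is a test function on `D ⊆ {|x| ≤ R}` then `∫ ψ² ≤ 4 R² ∫ (∂ₓψ)²`. -/
theorem poincare {D : Set (ℝ × ℝ)} {R : ℝ} (hD : ∀ z ∈ D, |z.1| ≤ R)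
    {ψ : ℝ × ℝ → ℝ} (hψ : TestOn D ψ) :
    ∫ z, ψ z ^ 2 ≤ 4 * R ^ 2 * ∫ z, dx ψ z ^ 2 := by
  have hz : ∀ z, ψ z ≠ 0 → |z.1| ≤ R := fun z hz =>
    hD z (hψ.2.2 (subset_tsupport _ hz))
  have h1 := ibp (hψ.mulSm hψ.sm) (g := fun z => z.1) contDiff_fst (1, 0)
  have h2 : ∀ z, fderiv ℝ (fun z : ℝ × ℝ => z.1) z (1, 0) = 1 := dx_fst
  have h3 : ∀ z, fderiv ℝ (fun z => ψ z * ψ z) z (1, 0) = 2 * (ψ z * dx ψ z) := by
    intro z
    have := dx_mul hψ.sm hψ.sm z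
    unfold dx at this ⊢
    rw [this]; ring
  simp only [h2, h3, mul_one] at h1
  have i1 : Integrable (fun z => ψ z ^ 2) := hψ.intSq
  have i2 : Integrable (fun z => dx ψ z ^ 2) := hψ.dx.intSq
  have h4 : ∫ z, -(2 * (ψ z * dx ψ z) * z.1) ≤ ∫ z, (1 / 2 * ψ z ^ 2 + 2 * R ^ 2 * dx ψ z ^ 2) := by
    refine integral_mono ?_ ((i1.const_mul _).add (i2.const_mul _)) ?_
    · have : Integrable (fun z => ψ z * (dx ψ z * z.1)) :=
        hψ.intMul (hψ.dx.cont.mul continuous_fst)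
      refine (this.const_mul (-2)).congr (ae_of_all _ fun z => ?_)
      simp only; ring
    · intro z
      by_cases h : ψ z = 0
      · simp [h]; positivity
      · have hR := hz z h
        have : -(2 * (ψ z * dx ψ z) * z.1) ≤ 1 / 2 * ψ z ^ 2 + 2 * (z.1 * dx ψ z) ^ 2 := by
          nlinarith [sq_nonneg (ψ z + 2 * (z.1 * dx ψ z))]
        have h5 : z.1 ^ 2 ≤ R ^ 2 := sq_le_sq' (by linarith [abs_le.1 hR]) (abs_le.1 hR).2
        have h6 : (z.1 * dx ψ z) ^ 2 ≤ R ^ 2 * dx ψ z ^ 2 := by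
          rw [mul_pow]; exact mul_le_mul_of_nonneg_right h5 (sq_nonneg _)
        simp only
        linarith
  rw [integral_neg, integral_add (i1.const_mul _) (i2.const_mul _), integral_const_mul,
    integral_const_mul] at h4
  have h7 : ∫ z, ψ z * ψ z = ∫ z, ψ z ^ 2 := by congr 1; funext z; ring
  rw [h7] at h1
  linarith

theorem bdd_fst {D : Set (ℝ × ℝ)} (hD : Bornology.IsBounded D) :
    ∃ R : ℝ, 0 < R ∧ ∀ z ∈ D, |z.1| ≤ R := by
  obtain ⟨R, hR⟩ := hD.exists_norm_le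
  refine ⟨max R 1, by positivity, fun z hz => ?_⟩
  exact ((norm_fst_le z).trans (hR z hz)).trans (le_max_left _ _)

theorem energy_ge_dx {D : Set (ℝ × ℝ)} {ψ : ℝ × ℝ → ℝ} (hψ : TestOn D ψ) :
    ∫ z, dx ψ z ^ 2 ≤ energy ψ := by
  refine integral_mono hψ.dx.intSq hψ.intE fun z => ?_
  simp only; nlinarith [sq_nonneg (dy ψ z)]

/-- The functional in the definition of `V` is bounded. -/
theorem functional_le {D : Set (ℝ × ℝ)} {R : ℝ} (hD : ∀ z ∈ D, |z.1| ≤ R)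
    {φ ψ : ℝ × ℝ → ℝ} (hφ : Integrable (fun z => φ z ^ 2)) (hφm : AEStronglyMeasurable φ)
    (hψ : TestOn D ψ) :
    (2 * ∫ z, φ z * ψ z) - energy ψ ≤ 4 * R ^ 2 * ∫ z, φ z ^ 2 := by
  have h1 := poincare hD hψ
  have h2 := energy_ge_dx hψ
  by_cases hR : R = 0
  · subst hR
    have h3 : ∫ z, ψ z ^ 2 ≤ 0 := by simpa using h1
    have h4 : (fun z => ψ z ^ 2) =ᵐ[volume] 0 :=
      (integral_eq_zero_iff_of_nonneg (fun z => sq_nonneg _) hψ.intSq).1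
        (le_antisymm h3 (integral_nonneg fun z => sq_nonneg _))
    have h5 : ∫ z, φ z * ψ z = 0 := by
      rw [← integral_zero (ℝ × ℝ) ℝ]
      refine integral_congr_ae ?_
      filter_upwards [h4] with z hz
      have : ψ z = 0 := by simpa using hz
      simp [this]
    rw [h5]; have := energy_nonneg ψ; simp; linarith
  have hR2 : 0 < 4 * R ^ 2 := by positivity
  have h3 : (2 * ∫ z, φ z * ψ z) ≤ 4 * R ^ 2 * (∫ z, φ z ^ 2) + (4 * R ^ 2)⁻¹ * ∫ z, ψ z ^ 2 := by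
    rw [← integral_const_mul, ← integral_const_mul, ← integral_const_mul, ← integral_add
      (hφ.const_mul _) (hψ.intSq.const_mul _)]
    refine integral_mono ?_ ((hφ.const_mul _).add (hψ.intSq.const_mul _)) fun z => ?_
    · refine Integrable.const_mul ?_ _
      refine Integrable.mono' ((hφ.add hψ.intSq)) (hφm.mul hψ.cont.aestronglyMeasurable) ?_
      refine ae_of_all _ fun z => ?_
      rw [Real.norm_eq_abs, abs_mul]
      simp only [Pi.add_apply]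
      nlinarith [sq_nonneg (|φ z| - |ψ z|), sq_abs (φ z), sq_abs (ψ z), sq_nonneg (φ z),
        sq_nonneg (ψ z)]
    · simp only
      have : 0 ≤ (4 * R ^ 2)⁻¹ * (4 * R ^ 2 * φ z - ψ z) ^ 2 := by positivity
      have e : (4 * R ^ 2)⁻¹ * (4 * R ^ 2 * φ z - ψ z) ^ 2
          = 4 * R ^ 2 * φ z ^ 2 + (4 * R ^ 2)⁻¹ * ψ z ^ 2 - 2 * (φ z * ψ z) := by
        field_simp; ring
      linarith
  have h4 : (4 * R ^ 2)⁻¹ * ∫ z, ψ z ^ 2 ≤ energy ψ := by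
    calc (4 * R ^ 2)⁻¹ * ∫ z, ψ z ^ 2 ≤ (4 * R ^ 2)⁻¹ * (4 * R ^ 2 * ∫ z, dx ψ z ^ 2) :=
          mul_le_mul_of_nonneg_left h1 (by positivity)
      _ = ∫ z, dx ψ z ^ 2 := by field_simp
      _ ≤ energy ψ := h2
  linarith

theorem bddAbove_V {D D' : Set (ℝ × ℝ)} (hD : Bornology.IsBounded D)
    {φ : ℝ × ℝ → ℝ} (hφ : TestOn D' φ) :
    BddAbove (Set.range fun ψ : {ψ : ℝ × ℝ → ℝ // TestOn D ψ} =>
      (2 * ∫ z, φ z * ψ.1 z) - energy ψ.1) := by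
  obtain ⟨R, _, hR⟩ := bdd_fst hD
  refine ⟨4 * R ^ 2 * ∫ z, φ z ^ 2, ?_⟩
  rintro _ ⟨ψ, rfl⟩
  exact functional_le hR hφ.intSq hφ.cont.aestronglyMeasurable ψ.2

theorem le_V {D D' : Set (ℝ × ℝ)} (hD : Bornology.IsBounded D)
    {φ ψ : ℝ × ℝ → ℝ} (hφ : TestOn D' φ) (hψ : TestOn D ψ) :
    (2 * ∫ z, φ z * ψ z) - energy ψ ≤ V D φ :=
  le_ciSup (f := fun ψ : {ψ : ℝ × ℝ → ℝ // TestOn D ψ} =>
    (2 * ∫ z, φ z * ψ.1 z) - energy ψ.1) (bddAbove_V hD hφ) ⟨ψ, hψ⟩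

theorem energy_zero : energy (fun _ => (0 : ℝ)) = 0 := by
  unfold energy dx dy; simp

theorem V_le {D : Set (ℝ × ℝ)} {φ : ℝ × ℝ → ℝ} {C : ℝ}
    (h : ∀ ψ, TestOn D ψ → (2 * ∫ z, φ z * ψ z) - energy ψ ≤ C) : V D φ ≤ C := by
  have : Nonempty {ψ : ℝ × ℝ → ℝ // TestOn D ψ} := ⟨⟨_, TestOn.zero D⟩⟩
  exact ciSup_le fun ψ => h ψ.1 ψ.2

theorem V_nonneg {D D' : Set (ℝ × ℝ)} (hD : Bornology.IsBounded D)
    {φ : ℝ × ℝ → ℝ} (hφ : TestOn D' φ) : 0 ≤ V D φ := by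
  have := le_V hD hφ (TestOn.zero D)
  rw [energy_zero] at this
  simpa using this

theorem V_mono {D D' D'' : Set (ℝ × ℝ)} (hD' : Bornology.IsBounded D') (h : D ⊆ D')
    {φ : ℝ × ℝ → ℝ} (hφ : TestOn D'' φ) : V D φ ≤ V D' φ :=
  V_le fun _ hψ => le_V hD' hφ (hψ.mono h)

/-- Cauchy-Schwarz for `V`: `2 ∫ φ ψ ≤ t V(φ) + energy ψ / t`. -/
theorem pair_le {D D' : Set (ℝ × ℝ)} (hD : Bornology.IsBounded D)
    {φ ψ : ℝ × ℝ → ℝ} (hφ : TestOn D' φ) (hψ : TestOn D ψ) :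
    (∫ z, φ z * ψ z) ^ 2 ≤ V D φ * energy ψ := by
  have h : ∀ t : ℝ, 0 ≤ energy ψ * (t * t) + (-(2 * ∫ z, φ z * ψ z)) * t + V D φ := by
    intro t
    have h1 := le_V hD hφ (hψ.smul t)
    have h2 : energy (fun z => t * ψ z) = t ^ 2 * energy ψ := by
      unfold energy
      rw [← integral_const_mul]
      congr 1; funext z
      rw [dx_smul hψ.sm, dy_smul hψ.sm]; ring
    have h3 : ∫ z, φ z * (t * ψ z) = t * ∫ z, φ z * ψ z := by
      rw [← integral_const_mul]; congr 1; funext z; ring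
    rw [h2, h3] at h1
    nlinarith
  have := discrim_le_zero h
  unfold discrim at this
  nlinarith

end Vale.Agent.P145.PT
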