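import Vale.Agent.P145.PT.Defs

/-!
Basic facts on test functions, integration by parts and the Poincaré inequality.
-/

namespace Vale.Agent.P145.PT

open MeasureTheory Set Filter Topology

/-- Smooth. -/
abbrev Sm (f : ℝ × ℝ → ℝ) : Prop := ContDiff ℝ ((⊤ : ℕ∞) : WithTop ℕ∞) f

theorem Sm.fd {f : ℝ × ℝ → ℝ} (h : Sm f) (v : ℝ × ℝ) : Sm (fun z => fderiv ℝ f z v) := by
  have h1 : ContDiff ℝ ((⊤ : ℕ∞) : WithTop ℕ∞) (fderiv ℝ f) :=
    h.fderiv_right (m := ((⊤ : ℕ∞) : WithTop ℕ∞)) (by norm_cast)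
  exact h1.clm_apply contDiff_const

theorem Sm.dx {f : ℝ × ℝ → ℝ} (h : Sm f) : Sm (dx f) := h.fd (1, 0)
theorem Sm.dy {f : ℝ × ℝ → ℝ} (h : Sm f) : Sm (dy f) := h.fd (0, 1)
theorem Sm.lap {f : ℝ × ℝ → ℝ} (h : Sm f) : Sm (lap f) := (h.dx.dx).add (h.dy.dy)
theorem Sm.diff {f : ℝ × ℝ → ℝ} (h : Sm f) : Differentiable ℝ f := h.differentiable (by simp)

theorem TestOn.sm {D : Set (ℝ × ℝ)} {f : ℝ × ℝ → ℝ} (h : TestOn D f) : Sm f := h.1
theorem TestOn.cs {D : Set (ℝ × ℝ)} {f : ℝ × ℝ → ℝ} (h : TestOn D f) : HasCompactSupport f := h.2.1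
theorem TestOn.cont {D : Set (ℝ × ℝ)} {f : ℝ × ℝ → ℝ} (h : TestOn D f) : Continuous f :=
  h.1.continuous
theorem TestOn.int {D : Set (ℝ × ℝ)} {f : ℝ × ℝ → ℝ} (h : TestOn D f) : Integrable f :=
  h.cont.integrable_of_hasCompactSupport h.cs

theorem TestOn.mono {D D' : Set (ℝ × ℝ)} {f : ℝ × ℝ → ℝ} (h : TestOn D f) (hD : D ⊆ D') :
    TestOn D' f := ⟨h.1, h.2.1, h.2.2.trans hD⟩

theorem TestOn.zero (D : Set (ℝ × ℝ)) : TestOn D (fun _ => 0) := by
  refine ⟨contDiff_const, ?_, ?_⟩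
  · exact HasCompactSupport.zero
  · have : tsupport (fun _ : ℝ × ℝ => (0 : ℝ)) = ∅ := by
      simp [tsupport]
    rw [this]; exact empty_subset _

theorem TestOn.add {D : Set (ℝ × ℝ)} {f g : ℝ × ℝ → ℝ} (hf : TestOn D f) (hg : TestOn D g) :
    TestOn D (fun z => f z + g z) :=
  ⟨hf.1.add hg.1, hf.2.1.add hg.2.1,
    (tsupport_add f g).trans (union_subset hf.2.2 hg.2.2)⟩

theorem TestOn.mulSm {D : Set (ℝ × ℝ)} {f g : ℝ × ℝ → ℝ} (hf : TestOn D f) (hg : Sm g) :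
    TestOn D (fun z => g z * f z) :=
  ⟨hg.mul hf.1, hf.2.1.mul_left, (tsupport_mul_subset_right).trans hf.2.2⟩

theorem TestOn.smul {D : Set (ℝ × ℝ)} {f : ℝ × ℝ → ℝ} (hf : TestOn D f) (c : ℝ) :
    TestOn D (fun z => c * f z) := hf.mulSm contDiff_const

theorem TestOn.neg {D : Set (ℝ × ℝ)} {f : ℝ × ℝ → ℝ} (hf : TestOn D f) :
    TestOn D (fun z => - f z) := by
  simpa using hf.smul (-1)

theorem TestOn.sub {D : Set (ℝ × ℝ)} {f g : ℝ × ℝ → ℝ} (hf : TestOn D f) (hg : TestOn D g) :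
    TestOn D (fun z => f z - g z) := by
  simpa [sub_eq_add_neg] using hf.add hg.neg

theorem TestOn.fd {D : Set (ℝ × ℝ)} {f : ℝ × ℝ → ℝ} (hf : TestOn D f) (v : ℝ × ℝ) :
    TestOn D (fun z => fderiv ℝ f z v) :=
  ⟨hf.sm.fd v, hf.2.1.fderiv_apply (𝕜 := ℝ) v, (tsupport_fderiv_apply_subset ℝ v).trans hf.2.2⟩

theorem TestOn.dx {D : Set (ℝ × ℝ)} {f : ℝ × ℝ → ℝ} (hf : TestOn D f) : TestOn D (dx f) :=
  hf.fd (1, 0)
theorem TestOn.dy {D : Set (ℝ × ℝ)} {f : ℝ × ℝ → ℝ} (hf : TestOn D f) : TestOn D (dy f) :=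
  hf.fd (0, 1)
theorem TestOn.lap {D : Set (ℝ × ℝ)} {f : ℝ × ℝ → ℝ} (hf : TestOn D f) : TestOn D (lap f) :=
  hf.dx.dx.add hf.dy.dy

theorem dx_add {f g : ℝ × ℝ → ℝ} (hf : Sm f) (hg : Sm g) (z : ℝ × ℝ) :
    dx (fun z => f z + g z) z = dx f z + dx g z := by
  unfold PT.dx
  rw [fderiv_fun_add hf.diff.differentiableAt hg.diff.differentiableAt]; rfl

theorem dy_add {f g : ℝ × ℝ → ℝ} (hf : Sm f) (hg : Sm g) (z : ℝ × ℝ) :
    dy (fun z => f z + g z) z = dy f z + dy g z := by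
  unfold PT.dy
  rw [fderiv_fun_add hf.diff.differentiableAt hg.diff.differentiableAt]; rfl

theorem dx_smul {f : ℝ × ℝ → ℝ} (hf : Sm f) (c : ℝ) (z : ℝ × ℝ) :
    dx (fun z => c * f z) z = c * dx f z := by
  unfold PT.dx
  rw [fderiv_const_mul hf.diff.differentiableAt]; rfl

theorem dy_smul {f : ℝ × ℝ → ℝ} (hf : Sm f) (c : ℝ) (z : ℝ × ℝ) :
    dy (fun z => c * f z) z = c * dy f z := by
  unfold PT.dy
  rw [fderiv_const_mul hf.diff.differentiableAt]; rfl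

theorem dx_mul {f g : ℝ × ℝ → ℝ} (hf : Sm f) (hg : Sm g) (z : ℝ × ℝ) :
    dx (fun z => f z * g z) z = f z * dx g z + dx f z * g z := by
  unfold PT.dx
  rw [fderiv_fun_mul hf.diff.differentiableAt hg.diff.differentiableAt]
  simp; ring

theorem dy_mul {f g : ℝ × ℝ → ℝ} (hf : Sm f) (hg : Sm g) (z : ℝ × ℝ) :
    dy (fun z => f z * g z) z = f z * dy g z + dy f z * g z := by
  unfold PT.dy
  rw [fderiv_fun_mul hf.diff.differentiableAt hg.diff.differentiableAt]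
  simp; ring

theorem lap_smul {f : ℝ × ℝ → ℝ} (hf : Sm f) (c : ℝ) (z : ℝ × ℝ) :
    lap (fun z => c * f z) z = c * lap f z := by
  unfold PT.lap
  have h1 : PT.dx (fun z => c * f z) = fun z => c * PT.dx f z := by funext w; exact dx_smul hf c w
  have h2 : PT.dy (fun z => c * f z) = fun z => c * PT.dy f z := by funext w; exact dy_smul hf c w
  rw [h1, h2, dx_smul hf.dx, dy_smul hf.dy]; ring

theorem lap_add {f g : ℝ × ℝ → ℝ} (hf : Sm f) (hg : Sm g) (z : ℝ × ℝ) :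
    lap (fun z => f z + g z) z = lap f z + lap g z := by
  unfold PT.lap
  have h1 : PT.dx (fun z => f z + g z) = fun z => PT.dx f z + PT.dx g z := by
    funext w; exact dx_add hf hg w
  have h2 : PT.dy (fun z => f z + g z) = fun z => PT.dy f z + PT.dy g z := by
    funext w; exact dy_add hf hg w
  rw [h1, h2, dx_add hf.dx hg.dx, dy_add hf.dy hg.dy]; ring

/-- Integration by parts. -/
theorem ibp {D : Set (ℝ × ℝ)} {f g : ℝ × ℝ → ℝ} (hf : TestOn D f) (hg : Sm g) (v : ℝ × ℝ) :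
    ∫ z, f z * fderiv ℝ g z v = - ∫ z, fderiv ℝ f z v * g z := by
  refine integral_mul_fderiv_eq_neg_fderiv_mul_of_integrable ?_ ?_ ?_
    (fun x _ => hf.sm.diff x) (fun x _ => hg.diff x)
  · refine Continuous.integrable_of_hasCompactSupport ?_ ?_
    · exact (hf.fd v).cont.mul hg.continuous
    · exact (hf.fd v).cs.mul_right
  · refine Continuous.integrable_of_hasCompactSupport ?_ ?_
    · exact hf.cont.mul (hg.fd v).continuous
    · exact hf.cs.mul_right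
  · refine Continuous.integrable_of_hasCompactSupport ?_ ?_
    · exact hf.cont.mul hg.continuous
    · exact hf.cs.mul_right

theorem TestOn.intMul {D : Set (ℝ × ℝ)} {f g : ℝ × ℝ → ℝ} (hf : TestOn D f) (hg : Continuous g) :
    Integrable (fun z => f z * g z) :=
  Continuous.integrable_of_hasCompactSupport (hf.cont.mul hg) hf.cs.mul_right

theorem TestOn.intMul' {D : Set (ℝ × ℝ)} {f g : ℝ × ℝ → ℝ} (hf : TestOn D f) (hg : Continuous g) :
    Integrable (fun z => g z * f z) :=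
  Continuous.integrable_of_hasCompactSupport (hg.mul hf.cont) hf.cs.mul_left

theorem TestOn.intSq {D : Set (ℝ × ℝ)} {f : ℝ × ℝ → ℝ} (hf : TestOn D f) :
    Integrable (fun z => f z ^ 2) := by
  simpa [sq] using hf.intMul hf.cont

theorem TestOn.intE {D : Set (ℝ × ℝ)} {f : ℝ × ℝ → ℝ} (hf : TestOn D f) :
    Integrable (fun z => PT.dx f z ^ 2 + PT.dy f z ^ 2) := hf.dx.intSq.add hf.dy.intSq

theorem energy_nonneg (f : ℝ × ℝ → ℝ) : 0 ≤ energy f :=
  integral_nonneg fun z => by positivity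

/-- Green's identity `∫ ψ (-Δ u) = ∫ ∇ψ · ∇u`. -/
theorem green_id {D : Set (ℝ × ℝ)} {f g : ℝ × ℝ → ℝ} (hf : TestOn D f) (hg : Sm g) :
    ∫ z, f z * lap g z = - ∫ z, (PT.dx f z * PT.dx g z + PT.dy f z * PT.dy g z) := by
  have h1 := ibp hf hg.dx (1, 0)
  have h2 := ibp hf hg.dy (0, 1)
  have e1 : ∫ z, f z * lap g z = (∫ z, f z * PT.dx (PT.dx g) z) + ∫ z, f z * PT.dy (PT.dy g) z := by
    rw [← integral_add]
    · congr 1; funext z; unfold PT.lap; ring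
    · exact hf.intMul hg.dx.dx.continuous
    · exact hf.intMul hg.dy.dy.continuous
  have e2 : ∫ z, (PT.dx f z * PT.dx g z + PT.dy f z * PT.dy g z)
      = (∫ z, PT.dx f z * PT.dx g z) + ∫ z, PT.dy f z * PT.dy g z := by
    rw [← integral_add]
    · exact hf.dx.intMul hg.dx.continuous
    · exact hf.dy.intMul hg.dy.continuous
  rw [e1, e2]
  have h1' : ∫ z, f z * PT.dx (PT.dx g) z = - ∫ z, PT.dx f z * PT.dx g z := h1
  have h2' : ∫ z, f z * PT.dy (PT.dy g) z = - ∫ z, PT.dy f z * PT.dy g z := h2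
  rw [h1', h2']; ring

theorem energy_eq {D : Set (ℝ × ℝ)} {f : ℝ × ℝ → ℝ} (hf : TestOn D f) :
    energy f = - ∫ z, f z * lap f z := by
  rw [green_id hf hf.sm, neg_neg]; unfold energy
  congr 1; funext z; ring

end Vale.Agent.P145.PT
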