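import Vale.Agent.P145.PT.Basic

/-!
The radial mollifier `rs s y = s⁻² ρ(y / s)` and its derivative in `s`, which is a Laplacian.
-/

namespace Vale.Agent.P145.PT

open MeasureTheory Set Filter Topology

/-- Smooth decreasing cutoff, `1` on `(-∞, 0]`, `0` on `[1, ∞)`. -/
noncomputable def kk (t : ℝ) : ℝ := Real.smoothTransition (1 - t)

theorem kk_smooth : ContDiff ℝ ((⊤ : ℕ∞) : WithTop ℕ∞) kk :=
  Real.smoothTransition.contDiff.comp (contDiff_const.sub contDiff_id)

theorem kk_nonneg (t : ℝ) : 0 ≤ kk t := Real.smoothTransition.nonneg _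
theorem kk_le_one (t : ℝ) : kk t ≤ 1 := Real.smoothTransition.le_one _
theorem kk_zero {t : ℝ} (h : 1 ≤ t) : kk t = 0 :=
  Real.smoothTransition.zero_of_nonpos (by linarith)
theorem kk_pos {t : ℝ} (h : t < 1) : 0 < kk t :=
  Real.smoothTransition.pos_of_pos (by linarith)

/-- `K(t) = ∫_t^1 k`. -/
noncomputable def KK (t : ℝ) : ℝ := - ∫ τ in (1 : ℝ)..t, kk τ

theorem KK_hasDeriv (t : ℝ) : HasDerivAt KK (-kk t) t := by
  have := intervalIntegral.integral_hasDerivAt_right (f := kk) (a := 1) (b := t)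
    (kk_smooth.continuous.intervalIntegrable _ _)
    (kk_smooth.continuous.stronglyMeasurableAtFilter _ _) kk_smooth.continuous.continuousAt
  exact this.neg

theorem KK_smooth : ContDiff ℝ ((⊤ : ℕ∞) : WithTop ℕ∞) KK := by
  have h1 : deriv KK = fun t => - kk t := by funext t; exact (KK_hasDeriv t).deriv
  rw [contDiff_infty_iff_deriv]
  refine ⟨fun t => (KK_hasDeriv t).differentiableAt, ?_⟩
  rw [h1]; exact kk_smooth.neg

theorem KK_zero {t : ℝ} (h : 1 ≤ t) : KK t = 0 := by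
  unfold KK
  rw [intervalIntegral.integral_congr (g := fun _ => (0 : ℝ))]
  · simp
  · intro τ hτ
    rw [uIcc_of_le h] at hτ
    exact kk_zero hτ.1

/-- `|y|²`. -/
def sqn (y : ℝ × ℝ) : ℝ := y.1 ^ 2 + y.2 ^ 2

theorem sqn_smooth : Sm sqn := (contDiff_fst.pow 2).add (contDiff_snd.pow 2)

theorem norm_le_of_sqn {y : ℝ × ℝ} {r : ℝ} (hr : 0 ≤ r) (h : sqn y ≤ r ^ 2) : ‖y‖ ≤ r := by
  unfold sqn at h
  rw [Prod.norm_def, max_le_iff, Real.norm_eq_abs, Real.norm_eq_abs]
  exact ⟨abs_le_of_sq_le_sq (by nlinarith [sq_nonneg y.2]) hr,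
    abs_le_of_sq_le_sq (by nlinarith [sq_nonneg y.1]) hr⟩

/-- Normalisation. -/
noncomputable def Z0 : ℝ := ∫ y : ℝ × ℝ, kk (sqn y)

theorem kks_smooth : Sm (fun y => kk (sqn y)) := kk_smooth.comp sqn_smooth

theorem kks_supp : Function.support (fun y => kk (sqn y)) ⊆ Metric.closedBall 0 1 := by
  intro y hy
  rw [mem_closedBall_zero_iff]
  refine norm_le_of_sqn zero_le_one ?_
  by_contra h
  push Not at h
  exact hy (kk_zero (by linarith))

theorem kks_cs : HasCompactSupport (fun y => kk (sqn y)) :=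
  HasCompactSupport.intro' (isCompact_closedBall 0 1) Metric.isClosed_closedBall
    fun y hy => by by_contra h; exact hy (kks_supp h)

theorem Z0_pos : 0 < Z0 := by
  unfold Z0
  rw [integral_pos_iff_support_of_nonneg (fun y => kk_nonneg _)
    (kks_smooth.continuous.integrable_of_hasCompactSupport kks_cs)]
  refine (IsOpen.measure_pos volume
    (isOpen_ne.preimage kks_smooth.continuous : IsOpen {y : ℝ × ℝ | kk (sqn y) ≠ 0})
    ⟨0, ?_⟩)
  have : sqn (0 : ℝ × ℝ) = 0 := by simp [sqn]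
  change kk (sqn 0) ≠ 0
  rw [this]
  exact (kk_pos (by norm_num)).ne'

/-- The radial mollifier of width `s`. -/
noncomputable def rs (s : ℝ) (y : ℝ × ℝ) : ℝ := Z0⁻¹ * (s ^ 2)⁻¹ * kk (sqn y / s ^ 2)

theorem rs_smooth (s : ℝ) : Sm (rs s) :=
  contDiff_const.mul (kk_smooth.comp (sqn_smooth.div_const _))

theorem rs_nonneg (s : ℝ) (y : ℝ × ℝ) : 0 ≤ rs s y :=
  mul_nonneg (mul_nonneg (inv_nonneg.2 Z0_pos.le) (by positivity)) (kk_nonneg _)

theorem rs_neg (s : ℝ) (y : ℝ × ℝ) : rs s (-y) = rs s y := by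
  unfold rs sqn; simp

theorem rs_zero {s : ℝ} (hs : 0 < s) {y : ℝ × ℝ} (h : s < ‖y‖) : rs s y = 0 := by
  unfold rs
  rw [kk_zero, mul_zero]
  rw [le_div_iff₀ (by positivity), one_mul]
  by_contra h1
  push Not at h1
  exact absurd (norm_le_of_sqn hs.le h1.le) (not_le.2 h)

theorem rs_supp {s : ℝ} (hs : 0 < s) : Function.support (rs s) ⊆ Metric.closedBall 0 s := by
  intro y hy
  rw [mem_closedBall_zero_iff]
  by_contra h
  push Not at h
  exact hy (rs_zero hs h)

theorem rs_cs {s : ℝ} (hs : 0 < s) : HasCompactSupport (rs s) :=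
  HasCompactSupport.intro' (isCompact_closedBall 0 s) Metric.isClosed_closedBall
    fun y hy => by by_contra h; exact hy (rs_supp hs h)

theorem rs_int {s : ℝ} (hs : 0 < s) : ∫ y, rs s y = 1 := by
  have h1 : ∀ y, rs s y = (Z0⁻¹ * (s ^ 2)⁻¹) * (fun y => kk (sqn y)) (s⁻¹ • y) := by
    intro y
    unfold rs sqn
    simp only [Prod.smul_fst, Prod.smul_snd, smul_eq_mul]
    congr 2
    field_simp
  simp_rw [h1]
  rw [integral_const_mul, Measure.integral_comp_smul volume (fun y => kk (sqn y)) s⁻¹]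
  have hd : Module.finrank ℝ (ℝ × ℝ) = 2 := by simp
  rw [hd, smul_eq_mul]
  have : |((s⁻¹) ^ 2)⁻¹| = s ^ 2 := by rw [abs_of_pos (by positivity)]; field_simp
  rw [this]
  change Z0⁻¹ * (s ^ 2)⁻¹ * (s ^ 2 * Z0) = 1
  have := Z0_pos.ne'
  field_simp

/-- The bump of width `s` at `x`. -/
noncomputable def bump (s : ℝ) (x z : ℝ × ℝ) : ℝ := rs s (z - x)

theorem bump_smooth (s : ℝ) (x : ℝ × ℝ) : Sm (bump s x) :=
  (rs_smooth s).comp (contDiff_id.sub contDiff_const)

theorem bump_nonneg (s : ℝ) (x z : ℝ × ℝ) : 0 ≤ bump s x z := rs_nonneg _ _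

theorem bump_zero {s : ℝ} (hs : 0 < s) {x z : ℝ × ℝ} (h : s < dist z x) : bump s x z = 0 :=
  rs_zero hs (by rwa [← dist_eq_norm])

theorem bump_supp {s : ℝ} (hs : 0 < s) (x : ℝ × ℝ) :
    Function.support (bump s x) ⊆ Metric.closedBall x s := by
  intro y hy
  rw [Metric.mem_closedBall]
  by_contra h
  push Not at h
  exact hy (bump_zero hs h)

theorem bump_test {D : Set (ℝ × ℝ)} {s : ℝ} (hs : 0 < s) {x : ℝ × ℝ}
    (h : Metric.closedBall x s ⊆ D) : TestOn D (bump s x) := by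
  refine ⟨bump_smooth s x, ?_, ?_⟩
  · exact HasCompactSupport.intro' (isCompact_closedBall x s) Metric.isClosed_closedBall
      fun y hy => by by_contra h; exact hy (bump_supp hs x h)
  · exact (closure_minimal (bump_supp hs x) Metric.isClosed_closedBall).trans h

theorem bump_int {s : ℝ} (hs : 0 < s) (x : ℝ × ℝ) : ∫ z, bump s x z = 1 := by
  unfold bump
  rw [integral_sub_right_eq_self (fun y => rs s y) x]
  exact rs_int hs

end Vale.Agent.P145.PT
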