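import Vale.Agent.P145.PT.Main

/-!
Gaussian moments: the recursion for the limit moments, and the method of moments.
-/

namespace Vale.Agent.P145.PT

open MeasureTheory Set Filter Topology

/-- Moments of the centred Gaussian law of variance `v`. -/
noncomputable def gm (v : ℝ) : ℕ → ℝ
  | 0 => 1
  | 1 => 0
  | n + 2 => (n + 1) * v * gm v n

/-- The limit moments are Gaussian. `A n θ` is the limit of `E[H(θ) H(φ)^n]`, `a n` the limit of
`E[H(φ)^n]`. -/
theorem moments_gauss {D : Set (ℝ × ℝ)} (hD : IsOpen D) (hb : Bornology.IsBounded D) {κ : ℝ}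
    (hκ : 0 < κ) {φ : ℝ × ℝ → ℝ} (hφ : TestOn D φ) {M : (ℝ × ℝ → ℝ) → (ℝ × ℝ → ℝ) → ℝ}
    (hM : Cov D κ M) (A : ℕ → (ℝ × ℝ → ℝ) → ℝ) (a : ℕ → ℝ)
    (hA1 : A 1 φ = M φ φ) (ha0 : a 0 = 1) (ha : ∀ n, a (n + 1) = A n φ)
    (hbd : ∀ n, ∃ C, L2Fn D (A n) C)
    (hsd0 : ∀ ψ, TestOn D ψ → A 0 (lap ψ) = 0)
    (hsd : ∀ n ψ, TestOn D ψ →
      A (n + 1) (lap ψ) = - (κ * (n + 1) * (∫ z, ψ z * φ z) * a n))
    (hdec : ∀ n, ∀ ε : ℝ, 0 < ε → ∃ r : ℝ, 0 < r ∧ ∀ x ∈ D, dd D x < r →
      |A n (bump (dd D x / 2) x)| ≤ ε) :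
    ∀ n, a n = gm (κ * V D φ) n := by
  have h1 : a 1 = 0 := by
    obtain ⟨C, hC⟩ := hbd 0
    rw [ha 0]
    exact uniq hD hb hC hsd0 (hdec 0) hφ
  have h2 : ∀ n, a (n + 2) = (n + 1) * (κ * V D φ) * a n := by
    intro n
    obtain ⟨C, hC⟩ := hbd (n + 1)
    obtain ⟨C1, hC1⟩ := hbd 1
    have hT := hC.comb hC1 (-((n + 1) * a n))
    have h := uniq hD hb hT (fun ψ hψ => by
      have e1 := hsd n ψ hψ
      have e2 := hsd 0 ψ hψ
      rw [zero_add] at e2
      rw [e1, e2, ha0]; push_cast; ring) (fun ε hε => by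
      set c : ℝ := |(-((n + 1) * a n))| with hc
      have hc0 : 0 ≤ c := abs_nonneg _
      obtain ⟨r1, hr1, hd1⟩ := hdec (n + 1) (ε / 2) (by positivity)
      obtain ⟨r2, hr2, hd2⟩ := hdec 1 (ε / (2 * (c + 1))) (by positivity)
      refine ⟨min r1 r2, lt_min hr1 hr2, fun x hx hxr => ?_⟩
      have e1 := hd1 x hx (lt_of_lt_of_le hxr (min_le_left _ _))
      have e2 := hd2 x hx (lt_of_lt_of_le hxr (min_le_right _ _))
      calc |A (n + 1) (bump (dd D x / 2) x) + -((n + 1) * a n) * A 1 (bump (dd D x / 2) x)|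
          ≤ |A (n + 1) (bump (dd D x / 2) x)|
            + |(-((n + 1) * a n)) * A 1 (bump (dd D x / 2) x)| := abs_add_le _ _
        _ ≤ ε / 2 + c * (ε / (2 * (c + 1))) := by
            rw [abs_mul]
            exact add_le_add e1 (mul_le_mul_of_nonneg_left e2 hc0)
        _ ≤ ε := by
            have : c * (ε / (2 * (c + 1))) = ε / 2 * (c / (c + 1)) := by field_simp
            rw [this]
            have : c / (c + 1) ≤ 1 := by rw [div_le_one (by linarith)]; linarith
            nlinarith) hφ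
    rw [hA1, hM.eq_V hD hb hκ hφ] at h
    rw [ha (n + 1)]
    linarith
  have h3 : ∀ n, a n = gm (κ * V D φ) n ∧ a (n + 1) = gm (κ * V D φ) (n + 1) := by
    intro n
    induction n with
    | zero => exact ⟨ha0, h1⟩
    | succ n ih =>
      refine ⟨ih.2, ?_⟩
      rw [h2 n, ih.1]; rfl
  exact fun n => (h3 n).1

/-! Method of moments. -/

/-- Taylor remainder of `exp (I x)`. -/
noncomputable def RR (n : ℕ) (x : ℝ) : ℂ :=
  Complex.exp (Complex.I * x) - ∑ k ∈ Finset.range n, (Complex.I * x) ^ k / (k.factorial : ℂ)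

theorem RR_zero_val (n : ℕ) : RR (n + 1) 0 = 0 := by
  unfold RR
  rw [Finset.sum_range_succ']
  simp

theorem RR_hasDeriv (n : ℕ) (x : ℝ) : HasDerivAt (RR (n + 1)) (Complex.I * RR n x) x := by
  unfold RR
  have hl : HasDerivAt (fun x : ℝ => Complex.I * (x : ℂ)) Complex.I x := by
    have := (Complex.ofRealCLM.hasDerivAt (x := x)).const_mul Complex.I
    simpa using this
  have h1 : HasDerivAt (fun x : ℝ => Complex.exp (Complex.I * x))
      (Complex.exp (Complex.I * x) * Complex.I) x := by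
    exact (Complex.hasDerivAt_exp _).comp x hl
  have h2 : HasDerivAt (fun x : ℝ => ∑ k ∈ Finset.range (n + 1),
      (Complex.I * (x : ℂ)) ^ k / (k.factorial : ℂ))
      (Complex.I * ∑ k ∈ Finset.range n, (Complex.I * x) ^ k / (k.factorial : ℂ)) x := by
    have e1 : (fun x : ℝ => ∑ k ∈ Finset.range (n + 1),
        (Complex.I * (x : ℂ)) ^ k / (k.factorial : ℂ))
        = fun x : ℝ => (∑ k ∈ Finset.range n,
        (Complex.I * (x : ℂ)) ^ (k + 1) / ((k + 1).factorial : ℂ)) + 1 := by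
      funext y; rw [Finset.sum_range_succ']; simp
    rw [e1, Finset.mul_sum]
    refine HasDerivAt.add_const _ ?_
    refine HasDerivAt.fun_sum fun k _ => ?_
    have h3 := (hl.pow (k + 1)).div_const ((k + 1).factorial : ℂ)
    refine h3.congr_deriv ?_
    rw [Nat.factorial_succ]
    push_cast
    have hk : ((k : ℂ) + 1) ≠ 0 := by exact_mod_cast Nat.succ_ne_zero k
    have hf : (k.factorial : ℂ) ≠ 0 := by exact_mod_cast Nat.factorial_ne_zero k
    field_simp
  refine (h1.sub h2).congr_deriv ?_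
  ring

theorem RR_bound_nonneg (n : ℕ) : ∀ x : ℝ, 0 ≤ x → ‖RR n x‖ ≤ x ^ n / n.factorial := by
  induction n with
  | zero =>
    intro x hx
    simp [RR, mul_comm Complex.I, Complex.norm_exp_ofReal_mul_I]
  | succ n ih =>
    intro x hx
    have key := image_norm_le_of_norm_deriv_right_le_deriv_boundary (a := 0) (b := x)
      (f := RR (n + 1)) (f' := fun x => Complex.I * RR n x)
      (B := fun x => x ^ (n + 1) / (n + 1).factorial) (B' := fun x => x ^ n / n.factorial)
      (fun y _ => (RR_hasDeriv n y).continuousAt.continuousWithinAt)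
      (fun y _ => (RR_hasDeriv n y).hasDerivWithinAt)
      (by rw [RR_zero_val]; simp)
      (fun y => by
        have := (hasDerivAt_pow (n + 1) y).div_const ((n + 1).factorial : ℝ)
        refine this.congr_deriv ?_
        rw [Nat.factorial_succ]; push_cast
        have hk : ((n : ℝ) + 1) ≠ 0 := by positivity
        have hf : (n.factorial : ℝ) ≠ 0 := by positivity
        field_simp)
      (fun y hy => by
        simp only [norm_mul, Complex.norm_I, one_mul]
        exact ih y hy.1)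
    exact key ⟨hx, le_rfl⟩

theorem RR_bound (n : ℕ) (x : ℝ) : ‖RR n x‖ ≤ |x| ^ n / n.factorial := by
  rcases le_total 0 x with h | h
  · rw [abs_of_nonneg h]; exact RR_bound_nonneg n x h
  · rw [abs_of_nonpos h]
    have h1 := RR_bound_nonneg n (-x) (by linarith)
    have h2 : RR n (-x) = (starRingEnd ℂ) (RR n x) := by
      unfold RR
      rw [map_sub, ← Complex.exp_conj, map_sum]
      congr 1
      · simp
      · refine Finset.sum_congr rfl fun k _ => ?_
        simp
    rw [h2, Complex.norm_conj] at h1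
    exact h1

theorem gm_even (v : ℝ) (k : ℕ) : gm v (2 * k) / (2 * k).factorial = (v / 2) ^ k / k.factorial := by
  induction k with
  | zero => simp [gm]
  | succ k ih =>
    have e : 2 * (k + 1) = 2 * k + 2 := by ring
    rw [e]
    change ((2 * k : ℕ) + 1) * v * gm v (2 * k) / _ = _
    rw [Nat.factorial_succ (2 * k + 1), Nat.factorial_succ (2 * k), Nat.factorial_succ k, pow_succ]
    have hf : ((2 * k).factorial : ℝ) ≠ 0 := by positivity
    have hf2 : (k.factorial : ℝ) ≠ 0 := by positivity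
    rw [div_eq_div_iff hf hf2] at ih
    push_cast
    rw [div_eq_div_iff (by positivity) (by positivity)]
    linear_combination (2 * (k : ℝ) + 1) * v * (k + 1) * ih

theorem gm_odd (v : ℝ) (k : ℕ) : gm v (2 * k + 1) = 0 := by
  induction k with
  | zero => rfl
  | succ k ih =>
    have e : 2 * (k + 1) + 1 = (2 * k + 1) + 2 := by ring
    rw [e]
    change _ * v * gm v (2 * k + 1) = 0
    rw [ih, mul_zero]

theorem gm_nonneg {v : ℝ} (hv : 0 ≤ v) (k : ℕ) : 0 ≤ gm v (2 * k) := by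
  have h := gm_even v k
  have h1 : 0 ≤ (v / 2) ^ k / k.factorial := by positivity
  rw [← h] at h1
  have hf : (0 : ℝ) < (2 * k).factorial := by positivity
  by_contra hc
  push Not at hc
  exact absurd h1 (not_le.2 (div_neg_of_neg_of_pos hc hf))

/-- The Taylor polynomial with the Gaussian moments. -/
theorem gm_taylor (v : ℝ) (m : ℕ) :
    ∑ k ∈ Finset.range (2 * m), Complex.I ^ k * (gm v k : ℂ) / (k.factorial : ℂ)
      = ∑ k ∈ Finset.range m, ((-(v / 2) : ℝ) : ℂ) ^ k / (k.factorial : ℂ) := by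
  induction m with
  | zero => simp
  | succ m ih =>
    have e : 2 * (m + 1) = 2 * m + 1 + 1 := by ring
    rw [e, Finset.sum_range_succ, Finset.sum_range_succ, ih, Finset.sum_range_succ, gm_odd]
    have h := gm_even v m
    have h' : (gm v (2 * m) : ℂ) / ((2 * m).factorial : ℂ)
        = ((v / 2 : ℝ) : ℂ) ^ m / (m.factorial : ℂ) := by exact_mod_cast congrArg Complex.ofReal h
    rw [mul_div_assoc, h', pow_mul, Complex.I_sq]
    simp only [Complex.ofReal_zero, mul_zero, zero_div, add_zero]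
    congr 1
    rw [Complex.ofReal_neg, neg_pow ((v / 2 : ℝ) : ℂ)]
    ring

/-- Method of moments for a centred Gaussian limit. -/
theorem charfun_of_moments {ι : Type*} {l : Filter ι} {Ω : ι → Type*}
    [∀ i, MeasurableSpace (Ω i)] (μ : ∀ i, Measure (Ω i)) [∀ i, IsProbabilityMeasure (μ i)]
    (X : ∀ i, Ω i → ℝ) (hint : ∀ i n, Integrable (fun ω => X i ω ^ n) (μ i)) {v : ℝ}
    (hmom : ∀ n, Tendsto (fun i => ∫ ω, X i ω ^ n ∂μ i) l (𝓝 (gm v n))) :
    Tendsto (fun i => ∫ ω, Complex.exp (Complex.I * (X i ω : ℂ)) ∂μ i) l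
      (𝓝 (Complex.exp ((-(v / 2) : ℝ) : ℂ))) := by
  rw [Metric.tendsto_nhds]
  intro ε hε
  -- choose m
  have t1 : Tendsto (fun m : ℕ => (v / 2) ^ m / (m.factorial : ℝ)) atTop (𝓝 0) :=
    FloorSemiring.tendsto_pow_div_factorial_atTop (v / 2)
  have t2 : Tendsto (fun m : ℕ => ∑ k ∈ Finset.range m,
      ((-(v / 2) : ℝ) : ℂ) ^ k / (k.factorial : ℂ)) atTop
      (𝓝 (Complex.exp ((-(v / 2) : ℝ) : ℂ))) := by
    have := (NormedSpace.expSeries_div_hasSum_exp (𝔸 := ℂ)
      ((-(v / 2) : ℝ) : ℂ)).tendsto_sum_nat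
    rwa [← Complex.exp_eq_exp_ℂ] at this
  obtain ⟨m, hm1, hm2⟩ := ((t1.eventually (gt_mem_nhds (show (0 : ℝ) < ε / 8 by positivity))).and
    (Metric.tendsto_nhds.1 t2 (ε / 4) (by positivity))).exists
  -- moment conditions
  have t3 : Tendsto (fun i => (∫ ω, X i ω ^ (2 * m) ∂μ i) / ((2 * m).factorial : ℝ)) l
      (𝓝 (gm v (2 * m) / ((2 * m).factorial : ℝ))) := (hmom (2 * m)).div_const _
  rw [gm_even] at t3
  have t4 : Tendsto (fun i => ∑ k ∈ Finset.range (2 * m),
      Complex.I ^ k * ((∫ ω, X i ω ^ k ∂μ i : ℝ) : ℂ) / (k.factorial : ℂ)) l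
      (𝓝 (∑ k ∈ Finset.range (2 * m), Complex.I ^ k * (gm v k : ℂ) / (k.factorial : ℂ))) := by
    refine tendsto_finsetSum _ fun k _ => ?_
    exact ((Complex.continuous_ofReal.tendsto _ |>.comp (hmom k)).const_mul _).div_const _
  rw [gm_taylor] at t4
  filter_upwards [t3.eventually (gt_mem_nhds (show (v / 2) ^ m / (m.factorial : ℝ) < ε / 4 by
    linarith)), Metric.tendsto_nhds.1 t4 (ε / 4) (by positivity)] with i hi3 hi4
  have hXm : AEStronglyMeasurable (X i) (μ i) := by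
    have := (hint i 1).aestronglyMeasurable
    simpa using this
  have hXc : AEStronglyMeasurable (fun ω => (X i ω : ℂ)) (μ i) :=
    Complex.continuous_ofReal.comp_aestronglyMeasurable hXm
  have ie : Integrable (fun ω => Complex.exp (Complex.I * (X i ω : ℂ))) (μ i) := by
    refine Integrable.of_bound (C := 1) ?_ (ae_of_all _ fun ω => ?_)
    · exact Complex.continuous_exp.comp_aestronglyMeasurable (hXc.const_mul _)
    · rw [mul_comm, Complex.norm_exp_ofReal_mul_I]
  have ik : ∀ k, Integrable (fun ω => (Complex.I * (X i ω : ℂ)) ^ k / (k.factorial : ℂ)) (μ i) := by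
    intro k
    have h1 : Integrable (fun ω => ((X i ω ^ k : ℝ) : ℂ)) (μ i) := (hint i k).ofReal
    have h2 := (h1.const_mul (Complex.I ^ k)).div_const (k.factorial : ℂ)
    refine h2.congr (ae_of_all _ fun ω => ?_)
    simp only [mul_pow, Complex.ofReal_pow]
  have es : ∫ ω, ∑ k ∈ Finset.range (2 * m), (Complex.I * (X i ω : ℂ)) ^ k / (k.factorial : ℂ) ∂μ i
      = ∑ k ∈ Finset.range (2 * m),
        Complex.I ^ k * ((∫ ω, X i ω ^ k ∂μ i : ℝ) : ℂ) / (k.factorial : ℂ) := by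
    rw [integral_finsetSum _ fun k _ => ik k]
    refine Finset.sum_congr rfl fun k _ => ?_
    rw [integral_div]
    congr 1
    have : ∀ ω, (Complex.I * (X i ω : ℂ)) ^ k = Complex.I ^ k * ((X i ω ^ k : ℝ) : ℂ) := by
      intro ω; rw [mul_pow]; push_cast; ring
    simp_rw [this]
    rw [integral_const_mul, integral_complex_ofReal]
  have e1 : ‖(∫ ω, Complex.exp (Complex.I * (X i ω : ℂ)) ∂μ i) - ∑ k ∈ Finset.range (2 * m),
      Complex.I ^ k * ((∫ ω, X i ω ^ k ∂μ i : ℝ) : ℂ) / (k.factorial : ℂ)‖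
      ≤ (∫ ω, X i ω ^ (2 * m) ∂μ i) / ((2 * m).factorial : ℝ) := by
    rw [← es, ← integral_sub ie (integrable_finsetSum _ fun k _ => ik k)]
    calc _ ≤ ∫ ω, ‖RR (2 * m) (X i ω)‖ ∂μ i := norm_integral_le_integral_norm _
      _ ≤ ∫ ω, X i ω ^ (2 * m) / ((2 * m).factorial : ℝ) ∂μ i := by
          refine integral_mono_of_nonneg (ae_of_all _ fun ω => norm_nonneg _)
            ((hint i (2 * m)).div_const _) (ae_of_all _ fun ω => ?_)
          have := RR_bound (2 * m) (X i ω)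
          rwa [pow_mul, sq_abs, ← pow_mul] at this
      _ = _ := integral_div _ _
  rw [dist_eq_norm] at hi4 hm2 ⊢
  calc ‖(∫ ω, Complex.exp (Complex.I * (X i ω : ℂ)) ∂μ i) - Complex.exp ((-(v / 2) : ℝ) : ℂ)‖
      ≤ ‖(∫ ω, Complex.exp (Complex.I * (X i ω : ℂ)) ∂μ i) - ∑ k ∈ Finset.range (2 * m),
      Complex.I ^ k * ((∫ ω, X i ω ^ k ∂μ i : ℝ) : ℂ) / (k.factorial : ℂ)‖
      + ‖(∑ k ∈ Finset.range (2 * m),
      Complex.I ^ k * ((∫ ω, X i ω ^ k ∂μ i : ℝ) : ℂ) / (k.factorial : ℂ))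
        - ∑ k ∈ Finset.range m, ((-(v / 2) : ℝ) : ℂ) ^ k / (k.factorial : ℂ)‖
      + ‖(∑ k ∈ Finset.range m, ((-(v / 2) : ℝ) : ℂ) ^ k / (k.factorial : ℂ))
        - Complex.exp ((-(v / 2) : ℝ) : ℂ)‖ := by
        refine (norm_sub_le_norm_sub_add_norm_sub _ (∑ k ∈ Finset.range m,
          ((-(v / 2) : ℝ) : ℂ) ^ k / (k.factorial : ℂ)) _).trans ?_
        gcongr
        exact norm_sub_le_norm_sub_add_norm_sub _ _ _
    _ < ε := by linarith

end Vale.Agent.P145.PT
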