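import Vale.Agent.P145.PT.LemA

/-!
The Courant-Lebesgue lemma: among the circles `|p - x| = r`, `R₁ < r < R₂`, there is one on which a
function of small energy has small oscillation.
-/

namespace Vale.Agent.P145.PT

open MeasureTheory Set Filter Topology

/-- The point of the circle. -/
noncomputable def cp (x : ℝ × ℝ) (r θ : ℝ) : ℝ × ℝ := (x.1 + r * Real.cos θ, x.2 + r * Real.sin θ)

/-- The angular derivative. -/
noncomputable def GG (ψ : ℝ × ℝ → ℝ) (x : ℝ × ℝ) (r θ : ℝ) : ℝ :=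
  dx ψ (cp x r θ) * (-(r * Real.sin θ)) + dy ψ (cp x r θ) * (r * Real.cos θ)

theorem fderiv_eq_dxdy (ψ : ℝ × ℝ → ℝ) (z v : ℝ × ℝ) :
    fderiv ℝ ψ z v = dx ψ z * v.1 + dy ψ z * v.2 := by
  unfold dx dy
  have : v = v.1 • ((1, 0) : ℝ × ℝ) + v.2 • ((0, 1) : ℝ × ℝ) := by ext <;> simp
  conv_lhs => rw [this]
  rw [map_add, map_smul, map_smul]; simp; ring

theorem GG_hasDeriv {ψ : ℝ × ℝ → ℝ} (hψ : Sm ψ) (x : ℝ × ℝ) (r θ : ℝ) :
    HasDerivAt (fun θ => ψ (cp x r θ)) (GG ψ x r θ) θ := by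
  have h1 : HasDerivAt (fun θ => cp x r θ) (-(r * Real.sin θ), r * Real.cos θ) θ := by
    refine HasDerivAt.prodMk ?_ ?_
    · have := ((Real.hasDerivAt_cos θ).const_mul r).const_add x.1
      refine this.congr_deriv ?_; ring
    · have := ((Real.hasDerivAt_sin θ).const_mul r).const_add x.2
      exact this
  have h2 := (hψ.diff (cp x r θ)).hasFDerivAt.comp_hasDerivAt θ h1
  refine h2.congr_deriv ?_
  rw [fderiv_eq_dxdy]; rfl

theorem cp_cont (x : ℝ × ℝ) : Continuous (fun q : ℝ × ℝ => cp x q.1 q.2) := by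
  unfold cp; fun_prop

theorem GG_cont {ψ : ℝ × ℝ → ℝ} (hψ : Sm ψ) (x : ℝ × ℝ) :
    Continuous (fun q : ℝ × ℝ => GG ψ x q.1 q.2) := by
  unfold GG
  have h1 := hψ.dx.continuous.comp (cp_cont x)
  have h2 := hψ.dy.continuous.comp (cp_cont x)
  have h3 : Continuous (fun q : ℝ × ℝ => -(q.1 * Real.sin q.2)) := by fun_prop
  have h4 : Continuous (fun q : ℝ × ℝ => q.1 * Real.cos q.2) := by fun_prop
  exact (h1.mul h3).add (h2.mul h4)

theorem GG_sq_le (ψ : ℝ × ℝ → ℝ) (x : ℝ × ℝ) {r θ : ℝ} (hr : 0 < r) :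
    r⁻¹ * GG ψ x r θ ^ 2 ≤ r * (dx ψ (cp x r θ) ^ 2 + dy ψ (cp x r θ) ^ 2) := by
  unfold GG
  set a := dx ψ (cp x r θ)
  set b := dy ψ (cp x r θ)
  have h := Real.sin_sq_add_cos_sq θ
  have e : (a * (-(r * Real.sin θ)) + b * (r * Real.cos θ)) ^ 2
      = r ^ 2 * ((a ^ 2 + b ^ 2) * (Real.sin θ ^ 2 + Real.cos θ ^ 2)
        - (a * Real.cos θ + b * Real.sin θ) ^ 2) := by ring
  rw [e, h, mul_one]
  have : r⁻¹ * (r ^ 2 * (a ^ 2 + b ^ 2 - (a * Real.cos θ + b * Real.sin θ) ^ 2))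
      = r * (a ^ 2 + b ^ 2) - r * (a * Real.cos θ + b * Real.sin θ) ^ 2 := by
    field_simp
  rw [this]
  have : 0 ≤ r * (a * Real.cos θ + b * Real.sin θ) ^ 2 := by positivity
  linarith

theorem polar_energy {D : Set (ℝ × ℝ)} {ψ : ℝ × ℝ → ℝ} (hψ : TestOn D ψ) (x : ℝ × ℝ)
    {R₁ R₂ q : ℝ} (h1 : 0 < R₁) (h12 : R₁ < R₂)
    (hq : ∀ r ∈ Ioo R₁ R₂, q ≤ ∫ θ in Ioo (-Real.pi) Real.pi, GG ψ x r θ ^ 2) :
    q * Real.log (R₂ / R₁) ≤ energy ψ := by
  set e : ℝ × ℝ → ℝ := fun z => dx ψ z ^ 2 + dy ψ z ^ 2 with he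
  have hec : Continuous e := (hψ.dx.cont.pow 2).add (hψ.dy.cont.pow 2)
  have hei : Integrable e := hψ.intE
  have e1 : energy ψ = ∫ p, e (x + p) := (integral_add_left_eq_self e x).symm
  have e2 : ∫ p, e (x + p) = ∫ p in polarCoord.target, p.1 • e (x + polarCoord.symm p) :=
    (integral_comp_polarCoord_symm (fun p => e (x + p))).symm
  have hcp : ∀ p : ℝ × ℝ, x + polarCoord.symm p = cp x p.1 p.2 := by
    intro p; rw [polarCoord_symm_apply]; rfl
  have hi0 : IntegrableOn (fun p : ℝ × ℝ => p.1 • e (x + polarCoord.symm p)) polarCoord.target := by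
    have h := (integrableOn_image_iff_integrableOn_abs_det_fderiv_smul volume
      polarCoord.open_target.measurableSet
      (fun p _ => (hasFDerivAt_polarCoord_symm p).hasFDerivWithinAt)
      polarCoord.symm.injOn (fun p => e (x + p))).1 ?_
    · refine h.congr_fun (fun p hp => ?_) polarCoord.open_target.measurableSet
      have : 0 < p.1 := hp.1
      simp only [det_fderivPolarCoordSymm, abs_of_pos this]
    · exact (hei.comp_add_left x).integrableOn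
  set S : Set (ℝ × ℝ) := Ioo R₁ R₂ ×ˢ Ioo (-Real.pi) Real.pi with hS
  have hSsub : S ⊆ polarCoord.target := by
    rintro p ⟨hp1, hp2⟩
    exact ⟨h1.trans hp1.1, hp2⟩
  have hSm : MeasurableSet S := measurableSet_Ioo.prod measurableSet_Ioo
  have e3 : ∫ p in S, p.1 • e (x + polarCoord.symm p)
      ≤ ∫ p in polarCoord.target, p.1 • e (x + polarCoord.symm p) := by
    refine setIntegral_mono_set hi0 ?_ (LE.le.eventuallyLE hSsub)
    refine (ae_restrict_iff' polarCoord.open_target.measurableSet).2 (ae_of_all _ fun p hp => ?_)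
    have : 0 < p.1 := hp.1
    simp only [Pi.zero_apply, smul_eq_mul]
    exact mul_nonneg this.le (by rw [he]; positivity)
  have hcontG : ContinuousOn (fun p : ℝ × ℝ => p.1⁻¹ * GG ψ x p.1 p.2 ^ 2)
      (Icc R₁ R₂ ×ˢ Icc (-Real.pi) Real.pi) := by
    refine ContinuousOn.mul ?_ ((GG_cont hψ.sm x).pow 2).continuousOn
    exact ContinuousOn.inv₀ continuous_fst.continuousOn
      (fun p hp => (lt_of_lt_of_le h1 hp.1.1).ne')
  have hGi : IntegrableOn (fun p : ℝ × ℝ => p.1⁻¹ * GG ψ x p.1 p.2 ^ 2) S :=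
    (hcontG.integrableOn_compact (isCompact_Icc.prod isCompact_Icc)).mono_set
      (prod_mono Ioo_subset_Icc_self Ioo_subset_Icc_self)
  have e4 : ∫ p in S, p.1⁻¹ * GG ψ x p.1 p.2 ^ 2 ≤ ∫ p in S, p.1 • e (x + polarCoord.symm p) := by
    refine setIntegral_mono_on hGi (hi0.mono_set hSsub) hSm fun p hp => ?_
    rw [hcp, smul_eq_mul]
    exact GG_sq_le ψ x (h1.trans hp.1.1)
  have e5 : ∫ p in S, p.1⁻¹ * GG ψ x p.1 p.2 ^ 2
      = ∫ r in Ioo R₁ R₂, ∫ θ in Ioo (-Real.pi) Real.pi, r⁻¹ * GG ψ x r θ ^ 2 := by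
    rw [hS]
    exact setIntegral_prod _ hGi
  have hlogi : IntegrableOn (fun r : ℝ => q * r⁻¹) (Ioo R₁ R₂) := by
    have : ContinuousOn (fun r : ℝ => q * r⁻¹) (Icc R₁ R₂) :=
      continuousOn_const.mul (continuousOn_id.inv₀ fun r hr => (lt_of_lt_of_le h1 hr.1).ne')
    exact this.integrableOn_Icc.mono_set Ioo_subset_Icc_self
  have e6 : ∫ r in Ioo R₁ R₂, q * r⁻¹
      ≤ ∫ r in Ioo R₁ R₂, ∫ θ in Ioo (-Real.pi) Real.pi, r⁻¹ * GG ψ x r θ ^ 2 := by
    refine setIntegral_mono_on hlogi ?_ measurableSet_Ioo fun r hr => ?_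
    · have := hGi
      rw [hS, IntegrableOn, Measure.volume_eq_prod, ← Measure.prod_restrict] at this
      exact this.integral_prod_left
    · rw [integral_const_mul, mul_comm q]
      exact mul_le_mul_of_nonneg_left (hq r hr) (inv_nonneg.2 (h1.trans hr.1).le)
  have e7 : ∫ r in Ioo R₁ R₂, q * r⁻¹ = q * Real.log (R₂ / R₁) := by
    rw [integral_const_mul, ← integral_Ioc_eq_integral_Ioo,
      ← intervalIntegral.integral_of_le h12.le, integral_inv_of_pos h1 (h1.trans h12)]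
  rw [e1, e2, ← e7]
  exact e6.trans (e5.symm.le.trans (e4.trans e3))

/-- Courant-Lebesgue. -/
theorem courant {D : Set (ℝ × ℝ)} {ψ : ℝ × ℝ → ℝ} (hψ : TestOn D ψ) (x : ℝ × ℝ)
    {R₁ R₂ δ : ℝ} (h1 : 0 < R₁) (h12 : R₁ < R₂) (hδ : 0 < δ)
    (hE : energy ψ < δ ^ 2 * Real.log (R₂ / R₁))
    (hz : ∀ r ∈ Ioo R₁ R₂, ∃ θ₀ ∈ Icc (-Real.pi) Real.pi, ψ (cp x r θ₀) = 0) :
    ∃ r ∈ Ioo R₁ R₂, ∀ θ ∈ Icc (-Real.pi) Real.pi, |ψ (cp x r θ)| ≤ 4 * δ := by
  have hex : ∃ r ∈ Ioo R₁ R₂, ∫ θ in Ioo (-Real.pi) Real.pi, GG ψ x r θ ^ 2 < δ ^ 2 := by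
    by_contra hc
    push Not at hc
    have := polar_energy hψ x h1 h12 hc
    linarith
  obtain ⟨r, hr, hlt⟩ := hex
  obtain ⟨θ₀, hθ₀, hz0⟩ := hz r hr
  refine ⟨r, hr, fun θ hθ => ?_⟩
  have hGc : Continuous (fun θ => GG ψ x r θ) :=
    (GG_cont hψ.sm x).comp (continuous_const.prodMk continuous_id)
  have hftc : ∫ t in θ₀..θ, GG ψ x r t = ψ (cp x r θ) := by
    rw [intervalIntegral.integral_eq_sub_of_hasDerivAt (fun t _ => GG_hasDeriv hψ.sm x r t)
      (hGc.intervalIntegrable _ _), hz0, sub_zero]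
  rw [← hftc]
  have hpi := Real.pi_pos
  have hsub : uIoc θ₀ θ ⊆ Ioc (-Real.pi) Real.pi := by
    rw [uIoc]
    exact Ioc_subset_Ioc (le_min hθ₀.1 hθ.1) (max_le hθ₀.2 hθ.2)
  have hi1 : IntegrableOn (fun t => |GG ψ x r t|) (Ioc (-Real.pi) Real.pi) :=
    (hGc.abs.integrableOn_Icc).mono_set Ioc_subset_Icc_self
  have hi2 : IntegrableOn (fun t => GG ψ x r t ^ 2) (Ioc (-Real.pi) Real.pi) :=
    ((hGc.pow 2).integrableOn_Icc).mono_set Ioc_subset_Icc_self
  have hi3 : IntegrableOn (fun t => δ / 2 + (2 * δ)⁻¹ * GG ψ x r t ^ 2)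
      (Ioc (-Real.pi) Real.pi) := by
    refine Integrable.add ?_ (hi2.const_mul _)
    exact integrableOn_const (hs := by simp)
  calc |∫ t in θ₀..θ, GG ψ x r t| ≤ ∫ t in uIoc θ₀ θ, |GG ψ x r t| := by
        have := intervalIntegral.norm_integral_le_integral_norm_uIoc (f := fun t => GG ψ x r t)
          (a := θ₀) (b := θ) (μ := volume)
        simpa [Real.norm_eq_abs] using this
    _ ≤ ∫ t in Ioc (-Real.pi) Real.pi, |GG ψ x r t| :=
        setIntegral_mono_set hi1 (ae_of_all _ fun t => abs_nonneg _)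
          (LE.le.eventuallyLE hsub)
    _ ≤ ∫ t in Ioc (-Real.pi) Real.pi, (δ / 2 + (2 * δ)⁻¹ * GG ψ x r t ^ 2) := by
        refine setIntegral_mono_on hi1 hi3 measurableSet_Ioc fun t _ => ?_
        have h0 : 0 ≤ (2 * δ)⁻¹ * (|GG ψ x r t| - δ) ^ 2 := by positivity
        have e : (2 * δ)⁻¹ * (|GG ψ x r t| - δ) ^ 2
            = δ / 2 + (2 * δ)⁻¹ * GG ψ x r t ^ 2 - |GG ψ x r t| := by
          rw [sub_sq, sq_abs]; field_simp; ring
        linarith
    _ = Real.pi * δ + (2 * δ)⁻¹ * ∫ t in Ioo (-Real.pi) Real.pi, GG ψ x r t ^ 2 := by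
        have hi4 : Integrable (fun _ : ℝ => δ / 2)
            (volume.restrict (Ioc (-Real.pi) Real.pi)) := integrable_const _
        rw [integral_add hi4 (hi2.const_mul _),
          setIntegral_const, integral_const_mul, integral_Ioc_eq_integral_Ioo]
        congr 1
        rw [Measure.real, Real.volume_Ioc, ENNReal.toReal_ofReal (by linarith), smul_eq_mul]
        ring
    _ ≤ Real.pi * δ + (2 * δ)⁻¹ * δ ^ 2 := by
        gcongr
    _ = (Real.pi + 1 / 2) * δ := by field_simp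
    _ ≤ 4 * δ := by
        refine mul_le_mul_of_nonneg_right ?_ hδ.le
        linarith [Real.pi_lt_d2]

/-- Every point of the circle is `cp x r θ`. -/
theorem exists_angle (x p : ℝ × ℝ) {r : ℝ} (hr : 0 ≤ r) (h : sqn (p - x) = r ^ 2) :
    ∃ θ ∈ Icc (-Real.pi) Real.pi, p = cp x r θ := by
  set z : ℂ := ⟨p.1 - x.1, p.2 - x.2⟩ with hz
  have hn : ‖z‖ = r := by
    have : ‖z‖ ^ 2 = r ^ 2 := by
      rw [← h, Complex.sq_norm, Complex.normSq_apply]
      simp only [hz, sqn, Prod.fst_sub, Prod.snd_sub]; ring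
    exact (pow_left_inj₀ (norm_nonneg _) hr two_ne_zero).1 this
  refine ⟨z.arg, ⟨(Complex.neg_pi_lt_arg z).le, Complex.arg_le_pi z⟩, ?_⟩
  have h1 := Complex.norm_mul_cos_arg z
  have h2 := Complex.norm_mul_sin_arg z
  rw [hn] at h1 h2
  refine Prod.ext ?_ ?_
  · change p.1 = x.1 + r * Real.cos z.arg
    rw [h1, hz]; ring
  · change p.2 = x.2 + r * Real.sin z.arg
    rw [h2, hz]; ring

end Vale.Agent.P145.PT
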