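import Vale.Agent.P145.PT.LemB

/-!
Inner approximation: `V D φ` is the limit of `V` of the inner sets `{dd D > s}`.
-/

namespace Vale.Agent.P145.PT

open MeasureTheory Set Filter Topology

/-- A test function on `D` is a test function on an inner set. -/
theorem TestOn.inner {D : Set (ℝ × ℝ)} (hD : IsOpen D) (hb : Bornology.IsBounded D)
    {f : ℝ × ℝ → ℝ} (hf : TestOn D f) : ∃ s : ℝ, 0 < s ∧ TestOn {x | s < dd D x} f := by
  obtain ⟨r, hr, hz⟩ := exists_low hD hb hf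
  refine ⟨r / 2, by linarith, hf.1, hf.2.1, ?_⟩
  have h : tsupport f ⊆ {x | r ≤ dd D x} := by
    refine closure_minimal ?_ (isClosed_le continuous_const (dd_cont D))
    intro x hx
    by_contra h
    rw [mem_ofPred_eq, not_le] at h
    exact hx (hz x h.le)
  intro x hx
  have h1 : r ≤ dd D x := h hx
  change r / 2 < dd D x
  linarith

theorem inner_stab {D D' : Set (ℝ × ℝ)} (hD : IsOpen D) (hb : Bornology.IsBounded D)
    {φ : ℝ × ℝ → ℝ} (hφ : TestOn D' φ) {η : ℝ} (hη : 0 < η) :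
    ∃ s : ℝ, 0 < s ∧ V D φ ≤ V {x | s < dd D x} φ + η := by
  have : Nonempty {ψ : ℝ × ℝ → ℝ // TestOn D ψ} := ⟨⟨_, TestOn.zero _⟩⟩
  obtain ⟨ψ, hψ⟩ := exists_lt_of_lt_ciSup (f := fun ψ : {ψ : ℝ × ℝ → ℝ // TestOn D ψ} =>
    (2 * ∫ z, φ z * ψ.1 z) - energy ψ.1) (b := V D φ - η) (by unfold V; linarith)
  obtain ⟨s, hs, hψs⟩ := ψ.2.inner hD hb
  refine ⟨s, hs, ?_⟩
  have hsub : {x | s < dd D x} ⊆ D := fun x hx =>
    (dd_pos hD hb).1 (hs.trans hx)
  have h1 := le_V (hb.subset hsub) hφ hψs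
  linarith

theorem inner_mono {D : Set (ℝ × ℝ)} {s t : ℝ} (h : s ≤ t) :
    {x | t < dd D x} ⊆ {x | s < dd D x} := fun _ hx => lt_of_le_of_lt h hx

end Vale.Agent.P145.PT
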