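import Vale.Agent.P145.PT.Jor
import Vale.Agent.P145.PT.Inner

/-!
Finite unions of grid squares: the complement of a small thickening is a union of large squares;
outer and inner approximations of a bounded open set.
-/

namespace Vale.Agent.P145.PT

open MeasureTheory Set Filter Topology

/-- The closed grid square. -/
def gsq (g : ℝ) (q : ℤ × ℤ) : Set (ℝ × ℝ) :=
  {z | g * q.1 ≤ z.1 ∧ z.1 ≤ g * (q.1 + 1) ∧ g * q.2 ≤ z.2 ∧ z.2 ≤ g * (q.2 + 1)}

/-- The union of the grid squares of `S`. -/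
def gun (g : ℝ) (S : Set (ℤ × ℤ)) : Set (ℝ × ℝ) := {z | ∃ q ∈ S, z ∈ gsq g q}

/-- One-dimensional version: the columns which are `s`-close to `x` cover an interval which
contains an interval of length `g - 2 s` around `x`. -/
theorem column {g s : ℝ} (hs : 0 < s) (hsg : s < g / 2) (x : ℝ) :
    ∃ c : ℝ, |x - c| ≤ g / 2 - s ∧ ∀ w y : ℝ, |w - c| ≤ g / 2 - s → |w - y| < s →
      ∀ q : ℤ, g * q ≤ y → y ≤ g * (q + 1) → ∃ y' : ℝ, |x - y'| < s ∧ g * q ≤ y' ∧
        y' ≤ g * (q + 1) := by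
  have hg : 0 < g := by linarith
  set i : ℤ := ⌊x / g⌋ with hi
  have h1 : g * i ≤ x := by
    have := Int.floor_le (x / g)
    rw [← hi, le_div_iff₀ hg] at this; linarith
  have h2 : x < g * (i + 1) := by
    have := Int.lt_floor_add_one (x / g)
    rw [← hi, div_lt_iff₀ hg] at this; linarith
  rcases lt_or_ge (x - g * i) s with ha | ha
  · -- columns i - 1 and i
    refine ⟨g * i - (g / 2 - s) + (x - g * i), ?_, ?_⟩
    · rw [abs_le]; constructor <;> linarith
    · intro w y hw hwy q hq1 hq2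
      rw [abs_le] at hw
      rw [abs_lt] at hwy
      have hq3 : (i : ℝ) - 1 < q + 1 := by
        by_contra h; push Not at h
        have : g * (q + 1) ≤ g * (i - 1) := mul_le_mul_of_nonneg_left h hg.le
        nlinarith
      have hq4 : (q : ℝ) < i + 1 := by
        by_contra h; push Not at h
        have : g * (i + 1) ≤ g * q := mul_le_mul_of_nonneg_left h hg.le
        nlinarith
      have hq5 : i - 1 < q + 1 := by exact_mod_cast hq3
      have hq6 : q < i + 1 := by exact_mod_cast hq4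
      have hq7 : q = i - 1 ∨ q = i := by omega
      rcases hq7 with rfl | rfl
      · refine ⟨g * i, ?_, ?_, ?_⟩
        · rw [abs_lt]; constructor <;> linarith
        · push_cast; nlinarith
        · push_cast; nlinarith
      · refine ⟨x, ?_, h1, h2.le⟩
        simpa using hs
  · rcases le_or_gt x (g * (i + 1) - s) with hb | hb
    · -- column i
      refine ⟨g * i + g / 2, ?_, ?_⟩
      · rw [abs_le]; constructor <;> linarith
      · intro w y hw hwy q hq1 hq2
        rw [abs_le] at hw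
        rw [abs_lt] at hwy
        have hq3 : (i : ℝ) < q + 1 := by
          by_contra h; push Not at h
          have : g * (q + 1) ≤ g * i := mul_le_mul_of_nonneg_left h hg.le
          nlinarith
        have hq4 : (q : ℝ) < i + 1 := by
          by_contra h; push Not at h
          have : g * (i + 1) ≤ g * q := mul_le_mul_of_nonneg_left h hg.le
          nlinarith
        have hq5 : i < q + 1 := by exact_mod_cast hq3
        have hq6 : q < i + 1 := by exact_mod_cast hq4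
        have hq7 : q = i := by omega
        subst hq7
        refine ⟨x, ?_, h1, h2.le⟩
        simpa using hs
    · -- columns i and i + 1
      refine ⟨g * (i + 1) + (g / 2 - s) - (g * (i + 1) - x), ?_, ?_⟩
      · rw [abs_le]; constructor <;> linarith
      · intro w y hw hwy q hq1 hq2
        rw [abs_le] at hw
        rw [abs_lt] at hwy
        have hq3 : (i : ℝ) < q + 1 := by
          by_contra h; push Not at h
          have : g * (q + 1) ≤ g * i := mul_le_mul_of_nonneg_left h hg.le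
          nlinarith
        have hq4 : (q : ℝ) < i + 2 := by
          by_contra h; push Not at h
          have : g * (i + 2) ≤ g * q := mul_le_mul_of_nonneg_left h hg.le
          nlinarith
        have hq5 : i < q + 1 := by exact_mod_cast hq3
        have hq6 : q < i + 2 := by exact_mod_cast hq4
        have hq7 : q = i ∨ q = i + 1 := by omega
        rcases hq7 with rfl | rfl
        · refine ⟨x, ?_, h1, h2.le⟩
          simpa using hs
        · refine ⟨g * (i + 1), ?_, ?_, ?_⟩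
          · rw [abs_lt]; constructor <;> linarith
          · push_cast; nlinarith
          · push_cast; nlinarith

/-- **Exterior squares.** Every point outside of the `s`-thickening of a union of grid squares lies
in a closed square of side `g - 2 s` outside of this thickening. -/
theorem exterior_square {g s : ℝ} (hs : 0 < s) (hsg : s < g / 2) (S : Set (ℤ × ℤ)) {z : ℝ × ℝ}
    (hz : z ∉ Metric.thickening s (gun g S)) :
    ∃ c : ℝ × ℝ, z ∈ Metric.closedBall c (g / 2 - s) ∧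
      Disjoint (Metric.closedBall c (g / 2 - s)) (Metric.thickening s (gun g S)) := by
  obtain ⟨c1, hc1, h1⟩ := column hs hsg z.1
  obtain ⟨c2, hc2, h2⟩ := column hs hsg z.2
  refine ⟨(c1, c2), ?_, ?_⟩
  · rw [Metric.mem_closedBall, Prod.dist_eq, max_le_iff, Real.dist_eq, Real.dist_eq]
    exact ⟨hc1, hc2⟩
  · rw [Set.disjoint_left]
    intro w hw hw'
    rw [Metric.mem_closedBall, Prod.dist_eq, max_le_iff, Real.dist_eq, Real.dist_eq] at hw
    obtain ⟨y, ⟨q, hqS, hq1, hq2, hq3, hq4⟩, hy⟩ := Metric.mem_thickening_iff.1 hw'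
    rw [Prod.dist_eq, max_lt_iff, Real.dist_eq, Real.dist_eq] at hy
    obtain ⟨y1, hy1, a1, a2⟩ := h1 w.1 y.1 hw.1 hy.1 q.1 hq1 hq2
    obtain ⟨y2, hy2, b1, b2⟩ := h2 w.2 y.2 hw.2 hy.2 q.2 hq3 hq4
    refine hz (Metric.mem_thickening_iff.2 ⟨(y1, y2), ⟨q, hqS, a1, a2, b1, b2⟩, ?_⟩)
    rw [Prod.dist_eq, max_lt_iff, Real.dist_eq, Real.dist_eq]
    exact ⟨hy1, hy2⟩

theorem mem_gsq_floor {g : ℝ} (hg : 0 < g) (z : ℝ × ℝ) : z ∈ gsq g (⌊z.1 / g⌋, ⌊z.2 / g⌋) := by
  have h1 := Int.floor_le (z.1 / g)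
  have h2 := (Int.lt_floor_add_one (z.1 / g)).le
  have h3 := Int.floor_le (z.2 / g)
  have h4 := (Int.lt_floor_add_one (z.2 / g)).le
  rw [le_div_iff₀ hg] at h1 h3
  rw [div_le_iff₀ hg] at h2 h4
  exact ⟨by simp only; linarith, by simp only; linarith, by simp only; linarith,
    by simp only; linarith⟩

theorem gsq_dist {g : ℝ} {q : ℤ × ℤ} {z w : ℝ × ℝ} (hz : z ∈ gsq g q) (hw : w ∈ gsq g q) :
    dist z w ≤ g := by
  obtain ⟨a1, a2, a3, a4⟩ := hz
  obtain ⟨b1, b2, b3, b4⟩ := hw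
  rw [Prod.dist_eq, max_le_iff, Real.dist_eq, Real.dist_eq, abs_le, abs_le]
  refine ⟨⟨?_, ?_⟩, ⟨?_, ?_⟩⟩ <;> linarith

/-- The squares meeting `D`. -/
def Sout (g : ℝ) (D : Set (ℝ × ℝ)) : Set (ℤ × ℤ) := {q | (gsq g q ∩ D).Nonempty}

/-- The squares well inside `D`. -/
def Sin (g : ℝ) (D : Set (ℝ × ℝ)) : Set (ℤ × ℤ) := {q | ∀ z ∈ gsq g q, 2 * g < dd D z}

theorem subset_gun_Sout {g : ℝ} (hg : 0 < g) (D : Set (ℝ × ℝ)) : D ⊆ gun g (Sout g D) :=
  fun z hz => ⟨_, ⟨z, mem_gsq_floor hg z, hz⟩, mem_gsq_floor hg z⟩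

theorem gun_Sout_subset {g s : ℝ} (hs : s ≤ g) (D : Set (ℝ × ℝ)) :
    Metric.thickening s (gun g (Sout g D)) ⊆ Metric.thickening (2 * g) D := by
  intro z hz
  obtain ⟨y, ⟨q, ⟨w, hw1, hw2⟩, hy⟩, hzy⟩ := Metric.mem_thickening_iff.1 hz
  refine Metric.mem_thickening_iff.2 ⟨w, hw2, ?_⟩
  have := gsq_dist hy hw1
  have h2 := dist_triangle z y w
  linarith

theorem gun_Sin_subset {g s : ℝ} (hs : s ≤ g) (D : Set (ℝ × ℝ)) :
    Metric.thickening s (gun g (Sin g D)) ⊆ {z | g < dd D z} := by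
  intro z hz
  obtain ⟨y, ⟨q, hq, hy⟩, hzy⟩ := Metric.mem_thickening_iff.1 hz
  have h1 := hq y hy
  have h2 := dd_le_add D y z
  rw [dist_comm] at h2
  change g < dd D z
  linarith

theorem subset_gun_Sin {g : ℝ} (hg : 0 < g) (D : Set (ℝ × ℝ)) :
    {z | 4 * g < dd D z} ⊆ gun g (Sin g D) := by
  intro z hz
  have hz' : 4 * g < dd D z := hz
  refine ⟨_, fun w hw => ?_, mem_gsq_floor hg z⟩
  have h1 := gsq_dist (mem_gsq_floor hg z) hw
  have h2 := dd_le_add D z w
  linarith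

theorem Sout_finite {g : ℝ} (hg : 0 < g) {D : Set (ℝ × ℝ)} (hb : Bornology.IsBounded D) :
    (Sout g D).Finite := by
  obtain ⟨R, hR⟩ := hb.exists_norm_le
  have hfin : (Icc (⌊(-R) / g⌋ - 1) (⌈R / g⌉ + 1) ×ˢ Icc (⌊(-R) / g⌋ - 1) (⌈R / g⌉ + 1)
      : Set (ℤ × ℤ)).Finite := (finite_Icc _ _).prod (finite_Icc _ _)
  refine hfin.subset ?_
  rintro q ⟨z, ⟨a1, a2, a3, a4⟩, hz⟩
  have h0 := hR z hz
  have h1 := (norm_fst_le z).trans h0
  have h2 := (norm_snd_le z).trans h0
  rw [Real.norm_eq_abs, abs_le] at h1 h2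
  have key : ∀ (m : ℤ) (x : ℝ), g * m ≤ x → x ≤ g * (m + 1) → -R ≤ x → x ≤ R →
      m ∈ Icc (⌊(-R) / g⌋ - 1) (⌈R / g⌉ + 1) := by
    intro m x e1 e2 e3 e4
    have f1 : -R / g ≤ m + 1 := by rw [div_le_iff₀ hg]; linarith
    have f2 : (m : ℝ) ≤ R / g := by rw [le_div_iff₀ hg]; linarith
    have f3 : ((⌊-R / g⌋ : ℤ) : ℝ) ≤ m + 1 := (Int.floor_le _).trans f1
    have f4 : (m : ℝ) ≤ (⌈R / g⌉ : ℤ) := f2.trans (Int.le_ceil _)
    have f5 : ⌊-R / g⌋ ≤ m + 1 := by exact_mod_cast f3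
    have f6 : m ≤ ⌈R / g⌉ := by exact_mod_cast f4
    exact ⟨by omega, by omega⟩
  exact ⟨key q.1 z.1 a1 a2 h1.1 h1.2, key q.2 z.2 a3 a4 h2.1 h2.2⟩

end Vale.Agent.P145.PT
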