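import Vale.Agent.P145.PT.Reg

/-!
The truncation function and the independence of `∫ u bump s x` of the width `s`.
-/

namespace Vale.Agent.P145.PT

open MeasureTheory Set Filter Topology

/-- Smooth version of `(x - ε)⁺`. -/
noncomputable def FF (ε x : ℝ) : ℝ := ∫ τ in ε..x, Real.smoothTransition ((τ - ε) / ε)

theorem st_cont (ε : ℝ) : Continuous (fun τ : ℝ => Real.smoothTransition ((τ - ε) / ε)) :=
  Real.smoothTransition.continuous.comp ((continuous_id.sub continuous_const).div_const _)

theorem FF_hasDeriv (ε x : ℝ) : HasDerivAt (FF ε) (Real.smoothTransition ((x - ε) / ε)) x :=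
  intervalIntegral.integral_hasDerivAt_right ((st_cont ε).intervalIntegrable _ _)
    ((st_cont ε).stronglyMeasurableAtFilter _ _) (st_cont ε).continuousAt

theorem FF_smooth (ε : ℝ) : ContDiff ℝ ((⊤ : ℕ∞) : WithTop ℕ∞) (FF ε) := by
  have h1 : deriv (FF ε) = fun x => Real.smoothTransition ((x - ε) / ε) := by
    funext t; exact (FF_hasDeriv ε t).deriv
  rw [contDiff_infty_iff_deriv]
  refine ⟨fun t => (FF_hasDeriv ε t).differentiableAt, ?_⟩
  rw [h1]
  exact Real.smoothTransition.contDiff.comp ((contDiff_id.sub contDiff_const).div_const _)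

theorem FF_zero {ε x : ℝ} (hε : 0 < ε) (h : x ≤ ε) : FF ε x = 0 := by
  unfold FF
  rw [intervalIntegral.integral_congr (g := fun _ => (0 : ℝ))]
  · simp
  · intro τ hτ
    rw [uIcc_of_ge h] at hτ
    exact Real.smoothTransition.zero_of_nonpos
      (div_nonpos_of_nonpos_of_nonneg (by linarith [hτ.2]) hε.le)

theorem FF_nonneg {ε : ℝ} (hε : 0 < ε) (x : ℝ) : 0 ≤ FF ε x := by
  rcases le_total x ε with h | h
  · rw [FF_zero hε h]
  · exact intervalIntegral.integral_nonneg h fun _ _ => Real.smoothTransition.nonneg _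

theorem FF_le {ε : ℝ} (hε : 0 < ε) {x : ℝ} {C : ℝ} (hC : 0 ≤ C) (h : x ≤ C) : FF ε x ≤ C := by
  rcases le_total x ε with h1 | h1
  · rw [FF_zero hε h1]; exact hC
  · have : FF ε x ≤ ∫ _ in ε..x, (1 : ℝ) :=
      intervalIntegral.integral_mono_on h1 ((st_cont ε).intervalIntegrable _ _)
        (intervalIntegrable_const) fun _ _ => Real.smoothTransition.le_one _
    rw [intervalIntegral.integral_const, smul_eq_mul, mul_one] at this
    linarith

theorem FF_le_abs {ε : ℝ} (hε : 0 < ε) (x : ℝ) : FF ε x ≤ |x| :=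
  FF_le hε (abs_nonneg x) (le_abs_self x)

theorem FF_ge {ε : ℝ} (hε : 0 < ε) (x : ℝ) : x - 2 * ε ≤ FF ε x := by
  rcases le_total x (2 * ε) with h | h
  · linarith [FF_nonneg hε x]
  · have e : FF ε x = (∫ τ in ε..(2 * ε), Real.smoothTransition ((τ - ε) / ε))
        + ∫ τ in (2 * ε)..x, Real.smoothTransition ((τ - ε) / ε) := by
      unfold FF
      rw [intervalIntegral.integral_add_adjacent_intervals
        ((st_cont ε).intervalIntegrable _ _) ((st_cont ε).intervalIntegrable _ _)]
    have e1 : 0 ≤ ∫ τ in ε..(2 * ε), Real.smoothTransition ((τ - ε) / ε) :=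
      intervalIntegral.integral_nonneg (by linarith) fun _ _ => Real.smoothTransition.nonneg _
    have e2 : ∫ τ in (2 * ε)..x, Real.smoothTransition ((τ - ε) / ε)
        = ∫ τ in (2 * ε)..x, (1 : ℝ) := by
      refine intervalIntegral.integral_congr fun τ hτ => ?_
      rw [uIcc_of_le h] at hτ
      refine Real.smoothTransition.one_of_one_le ?_
      rw [le_div_iff₀ hε]; linarith [hτ.1]
    rw [intervalIntegral.integral_const, smul_eq_mul, mul_one] at e2
    linarith

theorem kk_bound : ∃ B : ℝ, ∀ q : ℝ, 0 ≤ q → |kk q + q * deriv kk q| ≤ B := by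
  have hc : Continuous (fun q : ℝ => kk q + q * deriv kk q) :=
    kk_smooth.continuous.add (continuous_id.mul (kk_smooth.continuous_deriv (by simp)))
  obtain ⟨B, hB⟩ := (isCompact_Icc (a := (0 : ℝ)) (b := 1)).exists_bound_of_continuousOn
    hc.continuousOn
  refine ⟨max B 0, fun q hq => ?_⟩
  rcases le_or_gt q 1 with h | h
  · exact (hB q ⟨hq, h⟩).trans (le_max_left _ _)
  · have h1 : kk q = 0 := kk_zero h.le
    have h2 : deriv kk q = 0 := by
      have : kk =ᶠ[𝓝 q] fun _ => 0 := by
        filter_upwards [Ioi_mem_nhds h] with t ht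
        exact kk_zero (le_of_lt ht)
      rw [this.deriv_eq]; simp
    rw [h1, h2]; simp

theorem sqn_nonneg (y : ℝ × ℝ) : 0 ≤ sqn y := by unfold sqn; positivity

/-- If `Δu = 0` near `x` in the weak sense, `∫ u bump s x` does not depend on `s`. -/
theorem bump_const {D : Set (ℝ × ℝ)} {u f : ℝ × ℝ → ℝ} (hu : Integrable u)
    (heq : ∀ ψ, TestOn D ψ → ∫ z, u z * lap ψ z = - ∫ z, ψ z * f z)
    {x : ℝ × ℝ} {s t : ℝ} (hs : 0 < s) (hst : s ≤ t) (hb : Metric.closedBall x t ⊆ D)
    (hf : ∀ z ∈ Metric.closedBall x t, f z = 0) :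
    ∫ z, u z * bump t x z = ∫ z, u z * bump s x z := by
  obtain ⟨B, hB⟩ := kk_bound
  have hB0 : 0 ≤ B := (abs_nonneg _).trans (hB 0 le_rfl)
  have hZ := Z0_pos
  have key : ∀ r ∈ Icc s t, HasDerivAt (fun r => ∫ z, u z * bump r x z) 0 r := by
    intro r hr
    have hr0 : 0 < r := hs.trans_le hr.1
    have h1 : HasDerivAt (fun r => ∫ z, u z * bump r x z)
        (∫ z, u z * (r⁻¹ * lap (Ws r) (z - x))) r := by
      refine (hasDerivAt_integral_of_dominated_loc_of_deriv_le
        (F := fun r z => u z * bump r x z) (F' := fun r z => u z * (r⁻¹ * lap (Ws r) (z - x)))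
        (bound := fun z => |u z| * ((r / 2)⁻¹ * (2 * Z0⁻¹ * ((r / 2) ^ 2)⁻¹ * B)))
        (s := Ioi (r / 2)) (Ioi_mem_nhds (by linarith)) ?_ ?_ ?_ ?_ ?_ ?_).2
      · refine Eventually.of_forall fun r => ?_
        exact hu.aestronglyMeasurable.mul (bump_smooth r x).continuous.aestronglyMeasurable
      · simp_rw [bump_eq]
        exact cv_int hu (rs_smooth r).continuous (rs_cs hr0) x
      · refine hu.aestronglyMeasurable.mul (Continuous.aestronglyMeasurable ?_)
        exact continuous_const.mul ((Ws_smooth r).lap.continuous.comp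
          (continuous_id.sub continuous_const))
      · refine ae_of_all _ fun z q hq => ?_
        have hq0 : 0 < r / 2 := by linarith
        have hq1 : r / 2 < q := hq
        rw [Real.norm_eq_abs, abs_mul]
        refine mul_le_mul_of_nonneg_left ?_ (abs_nonneg _)
        rw [abs_mul, abs_of_pos (inv_pos.2 (hq0.trans hq1))]
        refine mul_le_mul (inv_anti₀ hq0 hq1.le) ?_ (abs_nonneg _) (by positivity)
        rw [lap_Ws, abs_mul, abs_neg, abs_of_nonneg (by positivity)]
        refine mul_le_mul ?_ (hB _ (div_nonneg (sqn_nonneg _) (by positivity)))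
          (abs_nonneg _) (by positivity)
        refine mul_le_mul_of_nonneg_left ?_ (by positivity)
        exact inv_anti₀ (by positivity) (pow_le_pow_left₀ hq0.le hq1.le 2)
      · exact (hu.abs).mul_const _
      · refine ae_of_all _ fun z q hq => ?_
        have hq0 : 0 < q := lt_trans (by linarith : (0 : ℝ) < r / 2) hq
        exact (rs_hasDeriv hq0 (z - x)).const_mul (u z)
    have h2 : ∫ z, u z * (r⁻¹ * lap (Ws r) (z - x)) = 0 := by
      have hT : TestOn D (fun z => Ws r (x - z)) := by
        refine ⟨(Ws_smooth r).comp (contDiff_const.sub contDiff_id), ?_, ?_⟩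
        · refine HasCompactSupport.intro' (isCompact_closedBall x r) Metric.isClosed_closedBall
            fun y hy => Ws_zero hr0 ?_
          rw [Metric.mem_closedBall, not_le, dist_eq_norm] at hy
          rwa [← norm_neg, neg_sub]
        · refine (closure_minimal ?_ Metric.isClosed_closedBall).trans
            ((Metric.closedBall_subset_closedBall hr.2).trans hb)
          intro y hy
          by_contra hy'
          rw [Metric.mem_closedBall, not_le, dist_eq_norm] at hy'
          exact hy (Ws_zero hr0 (by rwa [← norm_neg, neg_sub]))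
      have h3 := heq _ hT
      have h4 : ∀ z, lap (fun z => Ws r (x - z)) z = lap (Ws r) (z - x) := by
        intro z
        rw [lap_refl (Ws_smooth r), lap_Ws, lap_Ws]
        have : sqn (x - z) = sqn (z - x) := by unfold sqn; simp; ring
        rw [this]
      simp_rw [h4] at h3
      have h5 : ∫ z, Ws r (x - z) * f z = 0 := by
        rw [← integral_zero (ℝ × ℝ) ℝ]
        congr 1; funext z
        by_cases hz : z ∈ Metric.closedBall x t
        · rw [hf z hz, mul_zero]
        · rw [Metric.mem_closedBall, not_le, dist_eq_norm] at hz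
          rw [Ws_zero hr0, zero_mul]
          rw [← norm_neg, neg_sub]; exact lt_of_le_of_lt hr.2 hz
      rw [h5, neg_zero] at h3
      have h6 : ∀ z, u z * (r⁻¹ * lap (Ws r) (z - x)) = r⁻¹ * (u z * lap (Ws r) (z - x)) := by
        intro z; ring
      simp_rw [h6]
      rw [integral_const_mul, h3, mul_zero]
    rw [h2] at h1
    exact h1
  have hc : ContinuousOn (fun r => ∫ z, u z * bump r x z) (Icc s t) :=
    fun r hr => (key r hr).continuousAt.continuousWithinAt
  exact constant_of_has_deriv_right_zero hc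
    (fun r hr => (key r (Ico_subset_Icc_self hr)).hasDerivWithinAt) t ⟨hst, le_rfl⟩

end Vale.Agent.P145.PT
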