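import Vale.Agent.P145.PT.LemA

/-!
The truncation argument: a functional `T` with `-Δ T = f` and one-sided decay at the boundary is
dominated by test functions with small energy.
-/

namespace Vale.Agent.P145.PT

open MeasureTheory Set Filter Topology

/-- Distance to the complement. -/
noncomputable def dd (D : Set (ℝ × ℝ)) (x : ℝ × ℝ) : ℝ := Metric.infDist x Dᶜ

theorem dd_cont (D : Set (ℝ × ℝ)) : Continuous (dd D) := Metric.continuous_infDist_pt _

theorem compl_ne {D : Set (ℝ × ℝ)} (hb : Bornology.IsBounded D) : (Dᶜ).Nonempty := by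
  rw [Set.nonempty_compl]
  rintro rfl
  exact NoncompactSpace.noncompact_univ (X := ℝ × ℝ)
    (Metric.isCompact_of_isClosed_isBounded isClosed_univ hb)

theorem dd_pos {D : Set (ℝ × ℝ)} (hD : IsOpen D) (hb : Bornology.IsBounded D) {x : ℝ × ℝ} :
    0 < dd D x ↔ x ∈ D := by
  have := hD.isClosed_compl.notMem_iff_infDist_pos (compl_ne hb) (x := x)
  rw [← notMem_compl_iff, this]; rfl

theorem ball_sub {D : Set (ℝ × ℝ)} {x : ℝ × ℝ} {s : ℝ} (hs : s < dd D x) :
    Metric.closedBall x s ⊆ D := by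
  intro z hz
  by_contra h
  have h1 : dd D x ≤ dist x z := Metric.infDist_le_dist_of_mem h
  rw [Metric.mem_closedBall, dist_comm] at hz
  linarith

theorem dd_le_add (D : Set (ℝ × ℝ)) (x z : ℝ × ℝ) : dd D x ≤ dd D z + dist x z :=
  Metric.infDist_le_infDist_add_dist

/-- Smooth cutoff: `0` on `{dd ≤ a}`, `1` on `{dd ≥ b}`. -/
theorem exists_cutoff (D : Set (ℝ × ℝ)) {a b : ℝ} (hab : a < b) :
    ∃ χ : ℝ × ℝ → ℝ, Sm χ ∧ (∀ x, 0 ≤ χ x ∧ χ x ≤ 1) ∧ (∀ x, dd D x ≤ a → χ x = 0) ∧
      (∀ x, b ≤ dd D x → χ x = 1) := by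
  obtain ⟨χ, h0, h1, h2⟩ := exists_contMDiffMap_zero_one_of_isClosed (n := (⊤ : ℕ∞))
    (modelWithCornersSelf ℝ (ℝ × ℝ)) (s := {x | dd D x ≤ a}) (t := {x | b ≤ dd D x})
    (isClosed_le (dd_cont D) continuous_const) (isClosed_le continuous_const (dd_cont D))
    (by
      rw [Set.disjoint_left]
      intro x hx hx'
      exact absurd (lt_of_lt_of_le hab hx') (not_lt.2 hx))
  exact ⟨χ, χ.contMDiff.contDiff, fun x => ⟨(h2 x).1, (h2 x).2⟩, fun x hx => h0 hx,
    fun x hx => h1 hx⟩

theorem fd_comp {F F' : ℝ → ℝ} (hF : ∀ x, HasDerivAt F (F' x) x) {U : ℝ × ℝ → ℝ} (hU : Sm U)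
    (x v : ℝ × ℝ) : fderiv ℝ (fun x => F (U x)) x v = F' (U x) * fderiv ℝ U x v := by
  have h1 := (hF (U x)).comp_hasFDerivAt x (hU.diff x).hasFDerivAt
  have h2 : HasFDerivAt (fun x => F (U x)) _ x := h1
  rw [h2.fderiv]; simp

theorem exists_low {D : Set (ℝ × ℝ)} (hD : IsOpen D) (hb : Bornology.IsBounded D)
    {f : ℝ × ℝ → ℝ} (hf : TestOn D f) : ∃ r : ℝ, 0 < r ∧ ∀ z, dd D z ≤ r → f z = 0 := by
  rcases (tsupport f).eq_empty_or_nonempty with he | hne
  · refine ⟨1, one_pos, fun z _ => ?_⟩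
    by_contra h
    have := subset_tsupport f h
    rw [he] at this; exact this
  · obtain ⟨z0, hz0, hmin⟩ := IsCompact.exists_isMinOn (s := tsupport f) hf.cs hne
      (dd_cont D).continuousOn
    have hp : 0 < dd D z0 := (dd_pos hD hb).2 (hf.2.2 hz0)
    refine ⟨dd D z0 / 2, by linarith, fun z hz => ?_⟩
    by_contra h
    have h1 := hmin (subset_tsupport f h)
    simp only [mem_ofPred_eq] at h1
    linarith

theorem lemB {D : Set (ℝ × ℝ)} (hD : IsOpen D) (hb : Bornology.IsBounded D)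
    {T : (ℝ × ℝ → ℝ) → ℝ} {C : ℝ} (hT : L2Fn D T C) {f : ℝ × ℝ → ℝ} (hf : TestOn D f)
    (heq : ∀ ψ, TestOn D ψ → T (lap ψ) = - ∫ z, ψ z * f z)
    (hdec : ∀ ε : ℝ, 0 < ε → ∃ r : ℝ, 0 < r ∧ ∀ x ∈ D, dd D x < r →
      T (bump (dd D x / 2) x) ≤ ε)
    {θ : ℝ × ℝ → ℝ} (hθ : TestOn D θ) (hθ0 : ∀ z, 0 ≤ θ z) {η : ℝ} (hη : 0 < η) :
    ∃ ψ, TestOn D ψ ∧ energy ψ ≤ (∫ z, f z * ψ z) + η ∧ T θ ≤ (∫ z, θ z * ψ z) + η := by
  obtain ⟨u, hu, huD, hTu⟩ := rep hD hb hT
  have heq' : ∀ ψ, TestOn D ψ → ∫ z, u z * lap ψ z = - ∫ z, ψ z * f z := by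
    intro ψ hψ; rw [← hTu _ hψ.lap]; exact heq ψ hψ
  -- constants
  set I := ∫ z, θ z with hI
  have hI0 : 0 ≤ I := integral_nonneg hθ0
  set N := ∫ z, |u z| with hN
  have hN0 : 0 ≤ N := integral_nonneg fun z => abs_nonneg _
  set ε : ℝ := η / (4 * (I + 1)) with hε
  have hε0 : 0 < ε := by positivity
  have hεI : 2 * ε * I ≤ η / 2 := by
    rw [hε]
    have : 2 * (η / (4 * (I + 1))) * I = η / 2 * (I / (I + 1)) := by field_simp; ring
    rw [this]
    have : I / (I + 1) ≤ 1 := by rw [div_le_one (by linarith)]; linarith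
    nlinarith
  obtain ⟨rf, hrf, hfz⟩ := exists_low hD hb hf
  obtain ⟨rt, hrt, htz⟩ := exists_low hD hb hθ
  obtain ⟨rd, hrd, hdd⟩ := hdec ε hε0
  set r : ℝ := min (min (rf / 2) rt) rd with hr
  have hr0 : 0 < r := lt_min (lt_min (by linarith) hrt) hrd
  have hr1 : r ≤ rf / 2 := (min_le_left _ _).trans (min_le_left _ _)
  have hr2 : r ≤ rt := (min_le_left _ _).trans (min_le_right _ _)
  have hr3 : r ≤ rd := min_le_right _ _
  obtain ⟨s1, hs1, hm1⟩ := moll_unif hf.cont hf.cs (η := η / (N + 1)) (by positivity)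
  obtain ⟨s2, hs2, hm2⟩ := moll_unif hθ.cont hθ.cs (η := η / (2 * (N + 1))) (by positivity)
  set s : ℝ := min (min (s1 / 2) (s2 / 2)) (r / 4) with hs
  have hs0 : 0 < s := lt_min (lt_min (by linarith) (by linarith)) (by linarith)
  have hss1 : s < s1 := lt_of_le_of_lt ((min_le_left _ _).trans (min_le_left _ _)) (by linarith)
  have hss2 : s < s2 := lt_of_le_of_lt ((min_le_left _ _).trans (min_le_right _ _)) (by linarith)
  have hssr : s ≤ r / 4 := min_le_right _ _
  set U := US u s with hU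
  have hUs : Sm U := US_smooth hu hs0
  -- values of U
  have hUv : ∀ x, s < dd D x → U x = T (bump s x) := by
    intro x hx
    rw [hU, US_eq, hTu _ (bump_test hs0 (ball_sub hx))]
  have hUε : ∀ x, r / 2 < dd D x → dd D x < r → U x ≤ ε := by
    intro x hx1 hx2
    have hxD : x ∈ D := (dd_pos hD hb).1 (by linarith)
    have h1 := hdd x hxD (lt_of_lt_of_le hx2 hr3)
    have hd2 : dd D x / 2 < dd D x := by linarith
    rw [hTu _ (bump_test (by linarith) (ball_sub hd2))] at h1
    rw [bump_const hu heq' hs0 (by linarith) (ball_sub hd2) ?_] at h1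
    · rw [hU, US_eq]; exact h1
    · intro z hz
      refine hfz z ?_
      rw [Metric.mem_closedBall] at hz
      have := dd_le_add D z x
      linarith
  -- the cutoff
  obtain ⟨χ, hχs, hχ01, hχ0, hχ1⟩ := exists_cutoff D (show r / 2 < 3 * r / 4 by linarith)
  set ψ : ℝ × ℝ → ℝ := fun x => χ x * FF ε (U x) with hψ
  have hψv : ∀ x, r / 2 < dd D x → ψ x = FF ε (U x) := by
    intro x hx
    rcases le_or_gt (3 * r / 4) (dd D x) with h | h
    · rw [hψ]; simp only; rw [hχ1 x h, one_mul]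
    · rw [hψ]; simp only; rw [FF_zero hε0 (hUε x hx (by linarith)), mul_zero]
  have hψz : ∀ x, dd D x ≤ r / 2 → ψ x = 0 := by
    intro x hx; rw [hψ]; simp only; rw [hχ0 x hx, zero_mul]
  have hψ0 : ∀ x, 0 ≤ ψ x := fun x => mul_nonneg (hχ01 x).1 (FF_nonneg hε0 _)
  have hψs : Sm ψ := hχs.mul ((FF_smooth ε).comp hUs)
  have hsub : tsupport ψ ⊆ {x | r / 2 ≤ dd D x} := by
    refine closure_minimal ?_ (isClosed_le continuous_const (dd_cont D))
    intro x hx
    by_contra h
    rw [mem_ofPred_eq, not_le] at h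
    exact hx (hψz x h.le)
  have hsubD : tsupport ψ ⊆ D := fun x hx => by
    have h1 : r / 2 ≤ dd D x := hsub hx
    exact (dd_pos hD hb).1 (by linarith)
  have hψT : TestOn D ψ := by
    refine ⟨hψs, ?_, hsubD⟩
    exact Metric.isCompact_of_isClosed_isBounded (isClosed_tsupport _) (hb.subset hsubD)
  have hψU : ∀ x, ψ x ≤ |U x| := by
    intro x
    calc ψ x ≤ 1 * FF ε (U x) := mul_le_mul_of_nonneg_right (hχ01 x).2 (FF_nonneg hε0 _)
      _ ≤ |U x| := by rw [one_mul]; exact FF_le_abs hε0 _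
  have hψI : ∫ x, ψ x ≤ N :=
    (integral_mono hψT.int (US_integrable hu hs0).abs hψU).trans (US_L1 hu hs0)
  -- derivatives of ψ
  have hd1 : ∀ x, r / 2 < dd D x → ∀ v,
      fderiv ℝ ψ x v = Real.smoothTransition ((U x - ε) / ε) * fderiv ℝ U x v := by
    intro x hx v
    have : ψ =ᶠ[𝓝 x] fun x => FF ε (U x) := by
      filter_upwards [(isOpen_lt continuous_const (dd_cont D)).mem_nhds hx] with y hy
      exact hψv y hy
    rw [this.fderiv_eq]
    exact fd_comp (FF_hasDeriv ε) hUs x v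
  have hd2 : ∀ x, dd D x ≤ r / 2 → ∀ v, fderiv ℝ ψ x v = 0 := by
    intro x hx v
    have : IsLocalMin ψ x := Eventually.of_forall fun y => by rw [hψz x hx]; exact hψ0 y
    rw [this.fderiv_eq_zero]; rfl
  have hpt : ∀ x v, fderiv ℝ ψ x v ^ 2 ≤ fderiv ℝ ψ x v * fderiv ℝ U x v := by
    intro x v
    rcases lt_or_ge (r / 2) (dd D x) with h | h
    · rw [hd1 x h v]
      set a := Real.smoothTransition ((U x - ε) / ε)
      have ha0 : 0 ≤ a := Real.smoothTransition.nonneg _
      have ha1 : a ≤ 1 := Real.smoothTransition.le_one _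
      have : a * fderiv ℝ U x v * fderiv ℝ U x v - (a * fderiv ℝ U x v) ^ 2
          = a * (1 - a) * fderiv ℝ U x v ^ 2 := by ring
      nlinarith [mul_nonneg (mul_nonneg ha0 (sub_nonneg.2 ha1)) (sq_nonneg (fderiv ℝ U x v))]
    · rw [hd2 x h v]; simp
  have hE1 : energy ψ ≤ ∫ z, (dx ψ z * dx U z + dy ψ z * dy U z) := by
    refine integral_mono hψT.intE ((hψT.dx.intMul hUs.dx.continuous).add
      (hψT.dy.intMul hUs.dy.continuous)) fun z => ?_
    exact add_le_add (hpt z (1, 0)) (hpt z (0, 1))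
  have hE2 : ∫ z, (dx ψ z * dx U z + dy ψ z * dy U z) = - ∫ z, ψ z * lap U z := by
    rw [green_id hψT hUs, neg_neg]
  have hlap : ∀ x, s < dd D x → lap U x = - ∫ z, f z * bump s x z := by
    intro x hx
    rw [hU, US_lap hu hs0, heq' _ (bump_test hs0 (ball_sub hx))]
    congr 2; funext z; ring
  have hE3 : - ∫ z, ψ z * lap U z ≤ (∫ z, f z * ψ z) + η := by
    have e1 : - ∫ z, ψ z * lap U z = ∫ z, -(ψ z * lap U z) := (integral_neg _).symm
    rw [e1]
    have e2 : (∫ z, f z * ψ z) + η / (N + 1) * ∫ z, ψ z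
        = ∫ z, (f z * ψ z + η / (N + 1) * ψ z) := by
      rw [integral_add (hf.intMul hψT.cont) (hψT.int.const_mul _), integral_const_mul]
    have e3 : η / (N + 1) * ∫ z, ψ z ≤ η := by
      calc η / (N + 1) * ∫ z, ψ z ≤ η / (N + 1) * N :=
            mul_le_mul_of_nonneg_left hψI (by positivity)
        _ ≤ η := by
            rw [div_mul_eq_mul_div, div_le_iff₀ (by positivity)]
            nlinarith
    refine le_trans ?_ (add_le_add le_rfl e3)
    rw [e2]
    refine integral_mono (hψT.intMul hUs.lap.continuous).neg ((hf.intMul hψT.cont).add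
      (hψT.int.const_mul _)) fun x => ?_
    simp only
    rcases lt_or_ge (r / 2) (dd D x) with h | h
    · rw [hlap x (by linarith)]
      have h1 := abs_le.1 (hm1 s hs0 hss1 x)
      have h3 := hψ0 x
      have h4 : ψ x * ((∫ z, f z * bump s x z) - f x) ≤ ψ x * (η / (N + 1)) :=
        mul_le_mul_of_nonneg_left h1.2 h3
      nlinarith
    · rw [hψz x h]
      simp
  -- comparison with T θ
  have hF : T θ ≤ (∫ z, θ z * ψ z) + η := by
    have g1 : T θ = ∫ z, u z * θ z := hTu θ hθ
    -- θ U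
    have g2 : ∫ x, θ x * U x = ∫ z, u z * (∫ x, θ x * bump s z x) := by
      have hi : Integrable (fun p : (ℝ × ℝ) × (ℝ × ℝ) => θ p.1 * (u p.2 * bump s p.1 p.2))
          (volume.prod volume) := by
        obtain ⟨M, hM⟩ := (rs_cs hs0).exists_bound_of_continuous (rs_smooth s).continuous
        have h1 : Integrable (fun p : (ℝ × ℝ) × (ℝ × ℝ) => (θ p.1 * u p.2) * bump s p.1 p.2)
            (volume.prod volume) := by
          refine (hθ.int.mul_prod hu).mul_bdd (c := M) ?_ (ae_of_all _ fun p => hM _)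
          refine Continuous.aestronglyMeasurable ?_
          exact (rs_smooth s).continuous.comp (continuous_snd.sub continuous_fst)
        refine h1.congr (ae_of_all _ fun p => ?_)
        simp only; ring
      calc ∫ x, θ x * U x = ∫ x, ∫ z, θ x * (u z * bump s x z) := by
            congr 1; funext x; rw [integral_const_mul, hU, US_eq]
        _ = ∫ z, ∫ x, θ x * (u z * bump s x z) := integral_integral_swap hi
        _ = _ := by
            congr 1; funext z
            rw [← integral_const_mul]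
            congr 1; funext x
            rw [bump_symm s z x]; ring
    obtain ⟨Mθ, hMθ⟩ := hθ.cs.exists_bound_of_continuous hθ.cont
    have hcont : Continuous (fun z => ∫ x, θ x * bump s z x) := by
      have : (fun z => ∫ x, θ x * bump s z x) = US θ s := by funext z; rw [US_eq]
      rw [this]; exact (US_smooth hθ.int hs0).continuous
    have hbd : ∀ z, |∫ x, θ x * bump s z x| ≤ Mθ + η / (2 * (N + 1)) := by
      intro z
      have h1 := abs_le.1 (hm2 s hs0 hss2 z)
      have h2 := abs_le.1 (hMθ z)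
      rw [abs_le]; constructor <;> linarith [h1.1, h1.2, h2.1, h2.2]
    have g3 : |(∫ x, θ x * U x) - ∫ z, u z * θ z| ≤ η / 2 := by
      rw [g2]
      have i1 : Integrable (fun z => u z * ∫ x, θ x * bump s z x) :=
        hu.mul_bdd hcont.aestronglyMeasurable (ae_of_all _ hbd)
      have i2 : Integrable (fun z => u z * θ z) :=
        hu.mul_bdd hθ.cont.aestronglyMeasurable (ae_of_all _ hMθ)
      rw [← integral_sub i1 i2]
      calc |∫ z, (u z * (∫ x, θ x * bump s z x) - u z * θ z)|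
          ≤ ∫ z, |u z * (∫ x, θ x * bump s z x) - u z * θ z| := abs_integral_le_integral_abs
        _ ≤ ∫ z, |u z| * (η / (2 * (N + 1))) := by
            refine integral_mono_of_nonneg (ae_of_all _ fun z => abs_nonneg _)
              (hu.abs.mul_const _) (ae_of_all _ fun z => ?_)
            simp only
            rw [← mul_sub, abs_mul]
            exact mul_le_mul_of_nonneg_left (hm2 s hs0 hss2 z) (abs_nonneg _)
        _ = N * (η / (2 * (N + 1))) := by rw [integral_mul_const]
        _ ≤ η / 2 := by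
            have : N * (η / (2 * (N + 1))) = η / 2 * (N / (N + 1)) := by field_simp
            rw [this]
            have : N / (N + 1) ≤ 1 := by rw [div_le_one (by linarith)]; linarith
            nlinarith
    have g4 : ∫ x, θ x * U x ≤ (∫ x, θ x * ψ x) + 2 * ε * I := by
      rw [hI, ← integral_const_mul, ← integral_add (hθ.intMul hψT.cont) (hθ.int.const_mul _)]
      refine integral_mono (hθ.intMul hUs.continuous)
        ((hθ.intMul hψT.cont).add (hθ.int.const_mul _)) fun x => ?_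
      simp only
      rcases le_or_gt (dd D x) rt with h | h
      · rw [htz x h]; simp
      · rw [hψv x (by linarith)]
        have := FF_ge hε0 (U x)
        nlinarith [hθ0 x]
    have g5 := abs_le.1 g3
    rw [g1]
    linarith [g5.1]
  exact ⟨ψ, hψT, hE1.trans (hE2.le.trans hE3), hF⟩

end Vale.Agent.P145.PT
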