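import Vale.Agent.P145.PT.LemB

/-!
Identification of the two-point function, uniqueness, and Gaussian moments.
-/

namespace Vale.Agent.P145.PT

open MeasureTheory Set Filter Topology

/-- A test function is a difference of two nonnegative ones. -/
theorem exists_decomp {D : Set (ℝ × ℝ)} (hD : IsOpen D) (hb : Bornology.IsBounded D)
    {φ : ℝ × ℝ → ℝ} (hφ : TestOn D φ) : ∃ p m : ℝ × ℝ → ℝ, TestOn D p ∧ TestOn D m ∧
      (∀ z, 0 ≤ p z) ∧ (∀ z, 0 ≤ m z) ∧ ∀ z, φ z = p z - m z := by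
  obtain ⟨r, hr, hz⟩ := exists_low hD hb hφ
  obtain ⟨χ, hχs, hχ01, hχ0, hχ1⟩ := exists_cutoff D (show r / 2 < r by linarith)
  obtain ⟨B, hB⟩ := hφ.cs.exists_bound_of_continuous hφ.cont
  have hB0 : 0 ≤ B := (norm_nonneg _).trans (hB 0)
  have hsub : tsupport χ ⊆ {x | r / 2 ≤ dd D x} := by
    refine closure_minimal ?_ (isClosed_le continuous_const (dd_cont D))
    intro x hx
    by_contra h
    rw [mem_ofPred_eq, not_le] at h
    exact hx (hχ0 x h.le)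
  have hsubD : tsupport χ ⊆ D := fun x hx => by
    have h1 : r / 2 ≤ dd D x := hsub hx
    exact (dd_pos hD hb).1 (by linarith)
  have hχT : TestOn D χ := ⟨hχs,
    Metric.isCompact_of_isClosed_isBounded (isClosed_tsupport _) (hb.subset hsubD), hsubD⟩
  refine ⟨fun z => φ z + B * χ z, fun z => B * χ z, hφ.add (hχT.smul B), hχT.smul B,
    fun z => ?_, fun z => mul_nonneg hB0 (hχ01 z).1, fun z => by ring⟩
  change 0 ≤ φ z + B * χ z
  rcases le_or_gt (dd D z) r with h | h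
  · rw [hz z h, zero_add]; exact mul_nonneg hB0 (hχ01 z).1
  · rw [hχ1 z h.le, mul_one]
    have := abs_le.1 (hB z)
    linarith [this.1]

theorem L2Fn.sub' {D : Set (ℝ × ℝ)} {T : (ℝ × ℝ → ℝ) → ℝ} {C : ℝ} (hT : L2Fn D T C)
    {f g : ℝ × ℝ → ℝ} (hf : TestOn D f) (hg : TestOn D g) :
    T (fun z => f z - g z) = T f - T g := by
  have h1 := hT.add f (fun z => (-1) * g z) hf (hg.smul (-1))
  rw [hT.smul (-1) g hg] at h1
  have : (fun z => f z - g z) = fun z => f z + (-1) * g z := by funext z; ring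
  rw [this, h1]; ring

theorem L2Fn.comb {D : Set (ℝ × ℝ)} {T S : (ℝ × ℝ → ℝ) → ℝ} {C C' : ℝ} (hT : L2Fn D T C)
    (hS : L2Fn D S C') (c : ℝ) : L2Fn D (fun f => T f + c * S f) (C + |c| * C') where
  add := fun f g hf hg => by rw [hT.add f g hf hg, hS.add f g hf hg]; ring
  smul := fun a f hf => by rw [hT.smul a f hf, hS.smul a f hf]; ring
  bd := fun f hf => by
    calc |T f + c * S f| ≤ |T f| + |c * S f| := abs_add_le _ _
      _ ≤ C * Real.sqrt (∫ z, f z ^ 2) + |c| * (C' * Real.sqrt (∫ z, f z ^ 2)) := by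
          refine add_le_add (hT.bd f hf) ?_
          rw [abs_mul]
          exact mul_le_mul_of_nonneg_left (hS.bd f hf) (abs_nonneg c)
      _ = _ := by ring

theorem L2Fn.neg {D : Set (ℝ × ℝ)} {T : (ℝ × ℝ → ℝ) → ℝ} {C : ℝ} (hT : L2Fn D T C) :
    L2Fn D (fun f => - T f) C where
  add := fun f g hf hg => by rw [hT.add f g hf hg]; ring
  smul := fun a f hf => by rw [hT.smul a f hf]; ring
  bd := fun f hf => by rw [abs_neg]; exact hT.bd f hf

theorem le_zero_of {D : Set (ℝ × ℝ)} (hD : IsOpen D) (hb : Bornology.IsBounded D)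
    {T : (ℝ × ℝ → ℝ) → ℝ} {C : ℝ} (hT : L2Fn D T C)
    (heq : ∀ ψ, TestOn D ψ → T (lap ψ) = 0)
    (hdec : ∀ ε : ℝ, 0 < ε → ∃ r : ℝ, 0 < r ∧ ∀ x ∈ D, dd D x < r →
      T (bump (dd D x / 2) x) ≤ ε)
    {θ : ℝ × ℝ → ℝ} (hθ : TestOn D θ) (hθ0 : ∀ z, 0 ≤ θ z) : T θ ≤ 0 := by
  have hV := V_nonneg hb hθ
  have h : ∀ η : ℝ, 0 < η → T θ ≤ Real.sqrt (V D θ * η) + η := by
    intro η hη
    obtain ⟨ψ, hψ, hE, hTψ⟩ := lemB hD hb hT (TestOn.zero D)
      (fun ψ hψ => by rw [heq ψ hψ]; simp) hdec hθ hθ0 hη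
    have hE' : energy ψ ≤ η := by simpa using hE
    have h1 := pair_le hb hθ hψ
    have h2 : ∫ z, θ z * ψ z ≤ Real.sqrt (V D θ * η) := by
      refine Real.le_sqrt_of_sq_le (h1.trans ?_)
      exact mul_le_mul_of_nonneg_left hE' hV
    linarith
  have ht : Tendsto (fun η : ℝ => Real.sqrt (V D θ * η) + η) (𝓝[>] 0) (𝓝 0) := by
    have : Continuous (fun η : ℝ => Real.sqrt (V D θ * η) + η) := by fun_prop
    have h0 := this.tendsto 0
    simp only [mul_zero, Real.sqrt_zero, add_zero] at h0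
    exact h0.mono_left nhdsWithin_le_nhds
  exact ge_of_tendsto ht (by
    filter_upwards [self_mem_nhdsWithin] with η hη using h η hη)

/-- Uniqueness: an `L²`-bounded functional which is harmonic and decays at the boundary is `0`. -/
theorem uniq {D : Set (ℝ × ℝ)} (hD : IsOpen D) (hb : Bornology.IsBounded D)
    {T : (ℝ × ℝ → ℝ) → ℝ} {C : ℝ} (hT : L2Fn D T C)
    (heq : ∀ ψ, TestOn D ψ → T (lap ψ) = 0)
    (hdec : ∀ ε : ℝ, 0 < ε → ∃ r : ℝ, 0 < r ∧ ∀ x ∈ D, dd D x < r →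
      |T (bump (dd D x / 2) x)| ≤ ε)
    {θ : ℝ × ℝ → ℝ} (hθ : TestOn D θ) : T θ = 0 := by
  have hnn : ∀ θ, TestOn D θ → (∀ z, 0 ≤ θ z) → T θ = 0 := by
    intro θ hθ hθ0
    refine le_antisymm ?_ ?_
    · refine le_zero_of hD hb hT heq (fun ε hε => ?_) hθ hθ0
      obtain ⟨r, hr, h⟩ := hdec ε hε
      exact ⟨r, hr, fun x hx hxr => (le_abs_self _).trans (h x hx hxr)⟩
    · have := le_zero_of hD hb hT.neg (fun ψ hψ => by rw [heq ψ hψ, neg_zero]) (fun ε hε => by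
        obtain ⟨r, hr, h⟩ := hdec ε hε
        exact ⟨r, hr, fun x hx hxr => (neg_le_abs _).trans (h x hx hxr)⟩) hθ hθ0
      linarith
  obtain ⟨p, m, hp, hm, hp0, hm0, hpm⟩ := exists_decomp hD hb hθ
  have : θ = fun z => p z - m z := funext hpm
  rw [this, hT.sub' hp hm, hnn p hp hp0, hnn m hm hm0, sub_zero]

/-- The properties of a limit two-point function: symmetric, linear, positive, Schwinger-Dyson
equation `M(-Δψ, φ) = κ ∫ ψ φ`, boundedness in `L²`, and decay at the boundary. -/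
structure Cov (D : Set (ℝ × ℝ)) (κ : ℝ) (M : (ℝ × ℝ → ℝ) → (ℝ × ℝ → ℝ) → ℝ) : Prop where
  symm : ∀ f g, TestOn D f → TestOn D g → M f g = M g f
  pos : ∀ f, TestOn D f → 0 ≤ M f f
  bd : ∀ g, TestOn D g → ∃ C, L2Fn D (fun f => M f g) C
  sd : ∀ ψ g, TestOn D ψ → TestOn D g → M (lap ψ) g = - (κ * ∫ z, ψ z * g z)
  dec : ∀ g, TestOn D g → (∀ z, 0 ≤ g z) → ∀ ε : ℝ, 0 < ε → ∃ r : ℝ, 0 < r ∧
    ∀ x ∈ D, dd D x < r → M (bump (dd D x / 2) x) g ≤ ε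

theorem Cov.addl {D : Set (ℝ × ℝ)} {κ : ℝ} {M : (ℝ × ℝ → ℝ) → (ℝ × ℝ → ℝ) → ℝ} (h : Cov D κ M)
    {f g k : ℝ × ℝ → ℝ} (hf : TestOn D f) (hg : TestOn D g) (hk : TestOn D k) :
    M (fun z => f z + g z) k = M f k + M g k := by
  obtain ⟨C, hC⟩ := h.bd k hk
  exact hC.add f g hf hg

theorem Cov.smull {D : Set (ℝ × ℝ)} {κ : ℝ} {M : (ℝ × ℝ → ℝ) → (ℝ × ℝ → ℝ) → ℝ} (h : Cov D κ M)
    {f k : ℝ × ℝ → ℝ} (c : ℝ) (hf : TestOn D f) (hk : TestOn D k) :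
    M (fun z => c * f z) k = c * M f k := by
  obtain ⟨C, hC⟩ := h.bd k hk
  exact hC.smul c f hf

theorem Cov.quad {D : Set (ℝ × ℝ)} {κ : ℝ} {M : (ℝ × ℝ → ℝ) → (ℝ × ℝ → ℝ) → ℝ} (h : Cov D κ M)
    {f g : ℝ × ℝ → ℝ} (hf : TestOn D f) (hg : TestOn D g) (c : ℝ) :
    M (fun z => f z + c * g z) (fun z => f z + c * g z)
      = M f f + 2 * c * M f g + c ^ 2 * M g g := by
  have hcg := hg.smul c
  have hs := hf.add hcg
  have e1 : M (fun z => f z + c * g z) (fun z => f z + c * g z)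
      = M f (fun z => f z + c * g z) + M (fun z => c * g z) (fun z => f z + c * g z) :=
    h.addl hf hcg hs
  have e2 : M (fun z => c * g z) (fun z => f z + c * g z)
      = c * M g (fun z => f z + c * g z) := h.smull c hg hs
  have e3 : M f (fun z => f z + c * g z) = M f f + c * M f g := by
    rw [h.symm f _ hf hs]
    have : M (fun z => f z + c * g z) f = M f f + M (fun z => c * g z) f := h.addl hf hcg hf
    rw [this, h.smull c hg hf, h.symm g f hg hf]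
  have e4 : M g (fun z => f z + c * g z) = M f g + c * M g g := by
    rw [h.symm g _ hg hs]
    have : M (fun z => f z + c * g z) g = M f g + M (fun z => c * g z) g := h.addl hf hcg hg
    rw [this, h.smull c hg hg]
  rw [e1, e2, e3, e4]; ring

/-- `M(φ + Δψ, φ + Δψ) = M(φ, φ) - κ (2 ∫ φ ψ - ∫ |∇ψ|²)`. -/
theorem Cov.lapquad {D : Set (ℝ × ℝ)} {κ : ℝ} {M : (ℝ × ℝ → ℝ) → (ℝ × ℝ → ℝ) → ℝ}
    (h : Cov D κ M) {φ ψ : ℝ × ℝ → ℝ} (hφ : TestOn D φ) (hψ : TestOn D ψ) :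
    M (fun z => φ z + 1 * lap ψ z) (fun z => φ z + 1 * lap ψ z)
      = M φ φ - κ * ((2 * ∫ z, φ z * ψ z) - energy ψ) := by
  rw [h.quad hφ hψ.lap 1, h.symm φ _ hφ hψ.lap, h.sd ψ φ hψ hφ, h.sd ψ _ hψ hψ.lap,
    energy_eq hψ]
  have : ∫ z, ψ z * φ z = ∫ z, φ z * ψ z := by congr 1; funext z; ring
  rw [this]; ring

/-- The lower bound holds for free. -/
theorem Cov.lower {D : Set (ℝ × ℝ)} {κ : ℝ} (hκ : 0 < κ)
    {M : (ℝ × ℝ → ℝ) → (ℝ × ℝ → ℝ) → ℝ} (h : Cov D κ M) {φ : ℝ × ℝ → ℝ} (hφ : TestOn D φ) :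
    κ * V D φ ≤ M φ φ := by
  have : V D φ ≤ M φ φ / κ := V_le fun ψ hψ => by
    rw [le_div_iff₀ hκ]
    have h1 := h.pos _ (hφ.add (hψ.lap.smul 1))
    rw [h.lapquad hφ hψ] at h1
    linarith
  rwa [le_div_iff₀ hκ, mul_comm] at this

/-- A nonnegative test function is close to a Laplacian in the seminorm of `M`. -/
theorem Cov.approx {D : Set (ℝ × ℝ)} (hD : IsOpen D) (hb : Bornology.IsBounded D) {κ : ℝ}
    (hκ : 0 < κ) {M : (ℝ × ℝ → ℝ) → (ℝ × ℝ → ℝ) → ℝ} (h : Cov D κ M) {φ : ℝ × ℝ → ℝ}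
    (hφ : TestOn D φ) (hφ0 : ∀ z, 0 ≤ φ z) {η : ℝ} (hη : 0 < η) : ∃ ψ, TestOn D ψ ∧
      M (fun z => φ z + 1 * lap ψ z) (fun z => φ z + 1 * lap ψ z) ≤ η := by
  obtain ⟨C, hC⟩ := h.bd φ hφ
  have hT : L2Fn D (fun f => κ⁻¹ * M f φ) (κ⁻¹ * C) :=
    { add := fun f g hf hg => by rw [h.addl hf hg hφ]; ring
      smul := fun c f hf => by rw [h.smull c hf hφ]; ring
      bd := fun f hf => by
        rw [abs_mul, abs_of_pos (inv_pos.2 hκ), mul_assoc]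
        exact mul_le_mul_of_nonneg_left (hC.bd f hf) (inv_pos.2 hκ).le }
  obtain ⟨ψ, hψ, hE, hTψ⟩ := lemB hD hb hT hφ (fun ψ hψ => by
      rw [h.sd ψ φ hψ hφ]; field_simp)
    (fun ε hε => by
      obtain ⟨r, hr, hd⟩ := h.dec φ hφ hφ0 (κ * ε) (by positivity)
      refine ⟨r, hr, fun x hx hxr => ?_⟩
      have h1 := hd x hx hxr
      rw [inv_mul_le_iff₀ hκ]
      exact h1) hφ hφ0 (show 0 < η / (2 * κ) by positivity)
  refine ⟨ψ, hψ, ?_⟩
  rw [h.lapquad hφ hψ]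
  rw [inv_mul_le_iff₀ hκ] at hTψ
  have e : κ * (η / (2 * κ)) = η / 2 := by field_simp
  have h2 := mul_le_mul_of_nonneg_left hE hκ.le
  rw [mul_add, e] at h2 hTψ
  linarith

/-- Identification of the two-point function with the Green function of `D`. -/
theorem Cov.eq_V {D : Set (ℝ × ℝ)} (hD : IsOpen D) (hb : Bornology.IsBounded D) {κ : ℝ}
    (hκ : 0 < κ) {M : (ℝ × ℝ → ℝ) → (ℝ × ℝ → ℝ) → ℝ} (h : Cov D κ M) {φ : ℝ × ℝ → ℝ}
    (hφ : TestOn D φ) : M φ φ = κ * V D φ := by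
  refine le_antisymm ?_ (h.lower hκ hφ)
  refine le_of_forall_pos_le_add fun η hη => ?_
  obtain ⟨p, m, hp, hm, hp0, hm0, hpm⟩ := exists_decomp hD hb hφ
  obtain ⟨ψ1, hψ1, h1⟩ := h.approx hD hb hκ hp hp0 (show 0 < η / 4 by linarith)
  obtain ⟨ψ2, hψ2, h2⟩ := h.approx hD hb hκ hm hm0 (show 0 < η / 4 by linarith)
  set a : ℝ × ℝ → ℝ := fun z => p z + 1 * lap ψ1 z with ha
  set b : ℝ × ℝ → ℝ := fun z => m z + 1 * lap ψ2 z with hb'
  have hat : TestOn D a := hp.add (hψ1.lap.smul 1)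
  have hbt : TestOn D b := hm.add (hψ2.lap.smul 1)
  set ψ : ℝ × ℝ → ℝ := fun z => ψ1 z + (-1) * ψ2 z with hψd
  have hψ : TestOn D ψ := hψ1.add (hψ2.smul (-1))
  have e1 : (fun z => φ z + 1 * lap ψ z) = fun z => a z + (-1) * b z := by
    funext z
    rw [hψd, lap_add hψ1.sm (contDiff_const.mul hψ2.sm), lap_smul hψ2.sm, hpm z, ha, hb']
    ring
  have e2 := h.lapquad hφ hψ
  rw [e1, h.quad hat hbt (-1)] at e2
  -- M a b ≥ -(M a a + M b b)/2
  have e3 := h.pos _ (hat.add (hbt.smul 1))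
  rw [h.quad hat hbt 1] at e3
  have e4 := mul_le_mul_of_nonneg_left (le_V hb hφ hψ) hκ.le
  nlinarith

end Vale.Agent.P145.PT
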