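import Vale.Agent.P145.PT.Moll

/-!
`∂ₛ rs s y = s⁻¹ Δ (W(· / s)) (y)`.
-/

namespace Vale.Agent.P145.PT

open MeasureTheory Set Filter Topology

theorem hasFDerivAt_sqn (y : ℝ × ℝ) :
    HasFDerivAt sqn ((2 * y.1) • ContinuousLinearMap.fst ℝ ℝ ℝ
      + (2 * y.2) • ContinuousLinearMap.snd ℝ ℝ ℝ) y := by
  have h1 : HasFDerivAt (fun y : ℝ × ℝ => y.1) (ContinuousLinearMap.fst ℝ ℝ ℝ) y :=
    hasFDerivAt_fst
  have h2 : HasFDerivAt (fun y : ℝ × ℝ => y.2) (ContinuousLinearMap.snd ℝ ℝ ℝ) y :=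
    hasFDerivAt_snd
  have h3 : HasFDerivAt sqn _ y := (h1.pow 2).add (h2.pow 2)
  refine h3.congr_fderiv ?_
  simp

theorem hasFDerivAt_comp_sqn {g g' : ℝ → ℝ} (hg : ∀ t, HasDerivAt g (g' t) t) (s : ℝ)
    (y : ℝ × ℝ) :
    HasFDerivAt (fun y => g (sqn y / s ^ 2)) (g' (sqn y / s ^ 2) • ((s ^ 2)⁻¹ •
      ((2 * y.1) • ContinuousLinearMap.fst ℝ ℝ ℝ
        + (2 * y.2) • ContinuousLinearMap.snd ℝ ℝ ℝ))) y := by
  have h1 : HasFDerivAt (fun y => sqn y / s ^ 2) ((s ^ 2)⁻¹ •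
      ((2 * y.1) • ContinuousLinearMap.fst ℝ ℝ ℝ
        + (2 * y.2) • ContinuousLinearMap.snd ℝ ℝ ℝ)) y := by
    have := (hasFDerivAt_sqn y).const_mul ((s ^ 2)⁻¹)
    refine this.congr_of_eventuallyEq (Eventually.of_forall fun z => ?_)
    simp only; rw [div_eq_inv_mul]
  exact (hg _).comp_hasFDerivAt y h1

theorem dx_comp_sqn {g g' : ℝ → ℝ} (hg : ∀ t, HasDerivAt g (g' t) t) (s : ℝ) (y : ℝ × ℝ) :
    dx (fun y => g (sqn y / s ^ 2)) y = g' (sqn y / s ^ 2) * ((s ^ 2)⁻¹ * (2 * y.1)) := by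
  unfold dx
  rw [(hasFDerivAt_comp_sqn hg s y).fderiv]
  simp

theorem dy_comp_sqn {g g' : ℝ → ℝ} (hg : ∀ t, HasDerivAt g (g' t) t) (s : ℝ) (y : ℝ × ℝ) :
    dy (fun y => g (sqn y / s ^ 2)) y = g' (sqn y / s ^ 2) * ((s ^ 2)⁻¹ * (2 * y.2)) := by
  unfold dy
  rw [(hasFDerivAt_comp_sqn hg s y).fderiv]
  simp

/-- `W(y / s)`. -/
noncomputable def Ws (s : ℝ) (y : ℝ × ℝ) : ℝ := (2 * Z0)⁻¹ * KK (sqn y / s ^ 2)

theorem Ws_smooth (s : ℝ) : Sm (Ws s) :=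
  contDiff_const.mul (KK_smooth.comp (sqn_smooth.div_const _))

theorem Ws_zero {s : ℝ} (hs : 0 < s) {y : ℝ × ℝ} (h : s < ‖y‖) : Ws s y = 0 := by
  unfold Ws
  rw [KK_zero, mul_zero]
  rw [le_div_iff₀ (by positivity), one_mul]
  by_contra h1
  push Not at h1
  exact absurd (norm_le_of_sqn hs.le h1.le) (not_le.2 h)

theorem kk_hasDeriv (t : ℝ) : HasDerivAt kk (deriv kk t) t :=
  ((kk_smooth.differentiable (by simp)) t).hasDerivAt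

theorem lap_Ws (s : ℝ) (y : ℝ × ℝ) :
    lap (Ws s) y = -(2 * Z0⁻¹ * (s ^ 2)⁻¹) *
      (kk (sqn y / s ^ 2) + sqn y / s ^ 2 * deriv kk (sqn y / s ^ 2)) := by
  have hK : Sm (fun y => KK (sqn y / s ^ 2)) := KK_smooth.comp (sqn_smooth.div_const _)
  have hk : Sm (fun y => kk (sqn y / s ^ 2)) := kk_smooth.comp (sqn_smooth.div_const _)
  have hf1 : Sm (fun y : ℝ × ℝ => -(s ^ 2)⁻¹ * (2 * y.1)) :=
    contDiff_const.mul (contDiff_const.mul contDiff_fst)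
  have hf2 : Sm (fun y : ℝ × ℝ => -(s ^ 2)⁻¹ * (2 * y.2)) :=
    contDiff_const.mul (contDiff_const.mul contDiff_snd)
  have e1 : dx (fun y => KK (sqn y / s ^ 2))
      = fun y => kk (sqn y / s ^ 2) * (-(s ^ 2)⁻¹ * (2 * y.1)) := by
    funext y; rw [dx_comp_sqn KK_hasDeriv]; ring
  have e2 : dy (fun y => KK (sqn y / s ^ 2))
      = fun y => kk (sqn y / s ^ 2) * (-(s ^ 2)⁻¹ * (2 * y.2)) := by
    funext y; rw [dy_comp_sqn KK_hasDeriv]; ring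
  have e3 : ∀ y : ℝ × ℝ, dx (fun y : ℝ × ℝ => -(s ^ 2)⁻¹ * (2 * y.1)) y = -(s ^ 2)⁻¹ * 2 := by
    intro y
    rw [dx_smul (contDiff_const.mul contDiff_fst), dx_smul contDiff_fst]
    unfold dx; rw [fderiv_fst]; simp
  have e4 : ∀ y : ℝ × ℝ, dy (fun y : ℝ × ℝ => -(s ^ 2)⁻¹ * (2 * y.2)) y = -(s ^ 2)⁻¹ * 2 := by
    intro y
    rw [dy_smul (contDiff_const.mul contDiff_snd), dy_smul contDiff_snd]
    unfold dy; rw [fderiv_snd]; simp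
  have e0 : Ws s = fun y => (2 * Z0)⁻¹ * (fun y => KK (sqn y / s ^ 2)) y := rfl
  rw [e0, lap_smul hK]
  unfold lap
  rw [e1, e2, dx_mul hk hf1, dy_mul hk hf2, dx_comp_sqn kk_hasDeriv, dy_comp_sqn kk_hasDeriv,
    e3, e4, mul_inv]
  unfold sqn
  ring

theorem rs_hasDeriv {s : ℝ} (hs : 0 < s) (y : ℝ × ℝ) :
    HasDerivAt (fun s => rs s y) (s⁻¹ * lap (Ws s) y) s := by
  have h1 : HasDerivAt (fun s : ℝ => (s ^ 2)⁻¹) (-(2 * s) / (s ^ 2) ^ 2) s := by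
    have h0 : HasDerivAt (fun s : ℝ => (s ^ 2)⁻¹) _ s := (hasDerivAt_pow 2 s).inv (by positivity)
    refine h0.congr_deriv ?_
    simp
  have h2 : HasDerivAt (fun s : ℝ => sqn y / s ^ 2) (sqn y * (-(2 * s) / (s ^ 2) ^ 2)) s := by
    have := h1.const_mul (sqn y)
    simpa [div_eq_mul_inv] using this
  have h3 := (kk_hasDeriv (sqn y / s ^ 2)).comp s h2
  have h4 := (h1.const_mul Z0⁻¹).mul h3
  refine h4.congr_deriv ?_
  rw [lap_Ws]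
  simp only [Function.comp]
  have := Z0_pos.ne'
  field_simp
  ring

end Vale.Agent.P145.PT
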