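import Vale.Agent.P145.PT.Rep
import Vale.Agent.P145.PT.MollS

/-!
Convolutions `cv u g x = ∫ u(t) g(x - t) dt` of an integrable function with a test function.
-/

namespace Vale.Agent.P145.PT

open MeasureTheory Set Filter Topology

/-- Convolution. -/
noncomputable def cv (u g : ℝ × ℝ → ℝ) (x : ℝ × ℝ) : ℝ := ∫ t, u t * g (x - t)

theorem cv_eq (u g : ℝ × ℝ → ℝ) :
    cv u g = convolution u g (ContinuousLinearMap.mul ℝ ℝ) volume := by
  funext x
  simp [cv, convolution]

theorem cv_smooth {u g : ℝ × ℝ → ℝ} (hu : Integrable u) (hg : Sm g) (hc : HasCompactSupport g) :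
    Sm (cv u g) := by
  rw [cv_eq]
  exact hc.contDiff_convolution_right _ hu.locallyIntegrable hg

theorem cv_fderiv {u g : ℝ × ℝ → ℝ} (hu : Integrable u) (hg : Sm g) (hc : HasCompactSupport g)
    (x v : ℝ × ℝ) : fderiv ℝ (cv u g) x v = cv u (fun z => fderiv ℝ g z v) x := by
  have h1 := hc.hasFDerivAt_convolution_right (ContinuousLinearMap.mul ℝ ℝ)
    hu.locallyIntegrable (hg.of_le (by exact_mod_cast le_top)) x
  rw [cv_eq, h1.fderiv]
  have h2 : ConvolutionExistsAt u (fderiv ℝ g) x
      ((ContinuousLinearMap.mul ℝ ℝ).precompR (ℝ × ℝ)) volume := by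
    refine (hc.fderiv ℝ).convolutionExists_right _ hu.locallyIntegrable ?_ x
    exact (hg.continuous_fderiv (by simp))
  rw [convolution, ContinuousLinearMap.integral_apply h2]
  unfold cv
  congr 1

theorem cv_dx {u g : ℝ × ℝ → ℝ} (hu : Integrable u) (hg : Sm g) (hc : HasCompactSupport g) :
    dx (cv u g) = cv u (dx g) := by
  funext x; exact cv_fderiv hu hg hc x (1, 0)

theorem cv_dy {u g : ℝ × ℝ → ℝ} (hu : Integrable u) (hg : Sm g) (hc : HasCompactSupport g) :
    dy (cv u g) = cv u (dy g) := by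
  funext x; exact cv_fderiv hu hg hc x (0, 1)

theorem cv_int {u g : ℝ × ℝ → ℝ} (hu : Integrable u) (hg : Continuous g)
    (hc : HasCompactSupport g) (x : ℝ × ℝ) : Integrable (fun t => u t * g (x - t)) := by
  obtain ⟨C, hC⟩ := hc.exists_bound_of_continuous hg
  refine hu.mul_bdd (c := C) ?_ ?_
  · exact (hg.comp (continuous_const.sub continuous_id)).aestronglyMeasurable
  · exact ae_of_all _ fun t => hC _

theorem cv_lap {u g : ℝ × ℝ → ℝ} (hu : Integrable u) (hg : Sm g) (hc : HasCompactSupport g)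
    (x : ℝ × ℝ) : lap (cv u g) x = cv u (lap g) x := by
  have c1 : HasCompactSupport (dx g) := hc.fderiv_apply (𝕜 := ℝ) (1, 0)
  have c2 : HasCompactSupport (dy g) := hc.fderiv_apply (𝕜 := ℝ) (0, 1)
  have c3 : HasCompactSupport (dx (dx g)) := c1.fderiv_apply (𝕜 := ℝ) (1, 0)
  have c4 : HasCompactSupport (dy (dy g)) := c2.fderiv_apply (𝕜 := ℝ) (0, 1)
  unfold lap
  rw [cv_dx hu hg hc, cv_dy hu hg hc, cv_dx hu hg.dx c1, cv_dy hu hg.dy c2]
  unfold cv
  rw [← integral_add (cv_int hu hg.dx.dx.continuous c3 x) (cv_int hu hg.dy.dy.continuous c4 x)]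
  congr 1; funext t; ring

/-! Reflections and translations. -/

theorem fderiv_refl {g : ℝ × ℝ → ℝ} (hg : Sm g) (x z v : ℝ × ℝ) :
    fderiv ℝ (fun z => g (x - z)) z v = - fderiv ℝ g (x - z) v := by
  have h1 : HasFDerivAt (fun z : ℝ × ℝ => x - z) (-ContinuousLinearMap.id ℝ (ℝ × ℝ)) z :=
    (hasFDerivAt_id z).const_sub x
  have h2 := (hg.diff (x - z)).hasFDerivAt.comp z h1
  have h3 : HasFDerivAt (fun z => g (x - z)) _ z := h2
  rw [h3.fderiv]; simp

theorem lap_refl {g : ℝ × ℝ → ℝ} (hg : Sm g) (x z : ℝ × ℝ) :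
    lap (fun z => g (x - z)) z = lap g (x - z) := by
  unfold lap
  have e1 : dx (fun z => g (x - z)) = fun z => (fun w => - dx g w) (x - z) := by
    funext w; exact fderiv_refl hg x w (1, 0)
  have e2 : dy (fun z => g (x - z)) = fun z => (fun w => - dy g w) (x - z) := by
    funext w; exact fderiv_refl hg x w (0, 1)
  rw [e1, e2]
  have h1 : dx (fun z => (fun w => - dx g w) (x - z)) z = - dx (fun w => - dx g w) (x - z) :=
    fderiv_refl hg.dx.neg x z (1, 0)
  have h2 : dy (fun z => (fun w => - dy g w) (x - z)) z = - dy (fun w => - dy g w) (x - z) :=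
    fderiv_refl hg.dy.neg x z (0, 1)
  have h3 : dx (fun w => - dx g w) (x - z) = - dx (dx g) (x - z) := by
    unfold dx; rw [fderiv_fun_neg]; rfl
  have h4 : dy (fun w => - dy g w) (x - z) = - dy (dy g) (x - z) := by
    unfold dy; rw [fderiv_fun_neg]; rfl
  rw [h1, h2, h3, h4]; ring

theorem bump_eq (s : ℝ) (x : ℝ × ℝ) : bump s x = fun z => rs s (x - z) := by
  funext z; unfold bump; rw [← rs_neg, neg_sub]

theorem bump_symm (s : ℝ) (x z : ℝ × ℝ) : bump s x z = bump s z x := by
  rw [bump_eq]; rfl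

/-- The mollification `U s x = ∫ u(z) bump s x z dz`. -/
noncomputable def US (u : ℝ × ℝ → ℝ) (s : ℝ) : ℝ × ℝ → ℝ := cv u (rs s)

theorem US_eq (u : ℝ × ℝ → ℝ) (s : ℝ) (x : ℝ × ℝ) : US u s x = ∫ z, u z * bump s x z := by
  unfold US cv; rw [bump_eq]

theorem US_smooth {u : ℝ × ℝ → ℝ} (hu : Integrable u) {s : ℝ} (hs : 0 < s) : Sm (US u s) :=
  cv_smooth hu (rs_smooth s) (rs_cs hs)

theorem US_lap {u : ℝ × ℝ → ℝ} (hu : Integrable u) {s : ℝ} (hs : 0 < s) (x : ℝ × ℝ) :
    lap (US u s) x = ∫ z, u z * lap (bump s x) z := by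
  unfold US
  rw [cv_lap hu (rs_smooth s) (rs_cs hs)]
  unfold cv
  congr 1; funext z
  rw [bump_eq, lap_refl (rs_smooth s)]

theorem US_integrable {u : ℝ × ℝ → ℝ} (hu : Integrable u) {s : ℝ} (hs : 0 < s) :
    Integrable (US u s) := by
  unfold US
  rw [cv_eq]
  exact hu.integrable_convolution _ ((rs_smooth s).continuous.integrable_of_hasCompactSupport
    (rs_cs hs))

theorem US_L1 {u : ℝ × ℝ → ℝ} (hu : Integrable u) {s : ℝ} (hs : 0 < s) :
    ∫ x, |US u s x| ≤ ∫ z, |u z| := by
  have h1 : ∫ x, US (fun z => |u z|) s x = ∫ z, |u z| := by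
    unfold US
    rw [cv_eq, integral_convolution (ContinuousLinearMap.mul ℝ ℝ) hu.abs
      ((rs_smooth s).continuous.integrable_of_hasCompactSupport (rs_cs hs)), rs_int hs]
    simp
  rw [← h1]
  refine integral_mono (US_integrable hu hs).abs (US_integrable hu.abs hs) fun x => ?_
  simp only
  rw [US_eq, US_eq]
  refine (abs_integral_le_integral_abs).trans (le_of_eq ?_)
  congr 1; funext z
  rw [abs_mul, abs_of_nonneg (bump_nonneg s x z)]

/-- Uniform approximation by mollification. -/
theorem moll_unif {f : ℝ × ℝ → ℝ} (hf : Continuous f) (hc : HasCompactSupport f) {η : ℝ}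
    (hη : 0 < η) : ∃ s0 : ℝ, 0 < s0 ∧ ∀ s, 0 < s → s < s0 → ∀ x,
      |(∫ z, f z * bump s x z) - f x| ≤ η := by
  have hu := hc.uniformContinuous_of_continuous hf
  rw [Metric.uniformContinuous_iff] at hu
  obtain ⟨s0, hs0, h⟩ := hu η hη
  refine ⟨s0, hs0, fun s hs hss x => ?_⟩
  have hbi : Integrable (bump s x) := (bump_test hs (D := univ) (subset_univ _)).int
  have i1 : Integrable (fun z => f z * bump s x z) :=
    (bump_test hs (D := univ) (subset_univ _) (x := x)).intMul' hf
  have e : (∫ z, f z * bump s x z) - f x = ∫ z, (f z - f x) * bump s x z := by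
    have e0 : ∀ z, (f z - f x) * bump s x z = f z * bump s x z - f x * bump s x z := by
      intro z; ring
    simp_rw [e0]
    rw [integral_sub i1 (hbi.const_mul _), integral_const_mul, bump_int hs, mul_one]
  rw [e]
  calc |∫ z, (f z - f x) * bump s x z| ≤ ∫ z, |(f z - f x) * bump s x z| :=
        abs_integral_le_integral_abs
    _ ≤ ∫ z, η * bump s x z := by
        refine integral_mono_of_nonneg (ae_of_all _ fun z => abs_nonneg _) (hbi.const_mul _)
          (ae_of_all _ fun z => ?_)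
        simp only
        rw [abs_mul, abs_of_nonneg (bump_nonneg s x z)]
        by_cases hz : s < dist z x
        · rw [bump_zero hs hz]; simp
        · push Not at hz
          refine mul_le_mul_of_nonneg_right ?_ (bump_nonneg s x z)
          have := h (lt_of_le_of_lt hz hss)
          rw [Real.dist_eq] at this
          exact this.le
    _ = η := by rw [integral_const_mul, bump_int hs, mul_one]

end Vale.Agent.P145.PT
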