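import Vale.Agent.P145.PT.Poincare

/-!
A linear functional on test functions which is bounded in `L²` is given by an integrable function.
-/

namespace Vale.Agent.P145.PT

open MeasureTheory Set Filter Topology

/-- A linear functional on the test functions on `D` with `|T θ| ≤ C ∫ |θ|`. -/
structure BdFn (D : Set (ℝ × ℝ)) (T : (ℝ × ℝ → ℝ) → ℝ) (C : ℝ) : Prop where
  add : ∀ f g, TestOn D f → TestOn D g → T (fun z => f z + g z) = T f + T g
  smul : ∀ (c : ℝ) f, TestOn D f → T (fun z => c * f z) = c * T f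
  bd : ∀ f, TestOn D f → |T f| ≤ C * ∫ z, |f z|

/-- The space of test functions. -/
def TS (D : Set (ℝ × ℝ)) : Submodule ℝ (ℝ × ℝ → ℝ) where
  carrier := {f | TestOn D f}
  add_mem' := fun hf hg => hf.add hg
  zero_mem' := TestOn.zero D
  smul_mem' := fun c _ hf => hf.smul c

theorem TestOn.memLp {D : Set (ℝ × ℝ)} {f : ℝ × ℝ → ℝ} (hf : TestOn D f) (μ : Measure (ℝ × ℝ))
    [IsFiniteMeasureOnCompacts μ] (p : ENNReal) : MemLp f p μ :=
  hf.cont.memLp_of_hasCompactSupport hf.cs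

/-- A linear functional on the test functions on `D` with `|T θ| ≤ C (∫ θ²)^(1/2)`. -/
structure L2Fn (D : Set (ℝ × ℝ)) (T : (ℝ × ℝ → ℝ) → ℝ) (C : ℝ) : Prop where
  add : ∀ f g, TestOn D f → TestOn D g → T (fun z => f z + g z) = T f + T g
  smul : ∀ (c : ℝ) f, TestOn D f → T (fun z => c * f z) = c * T f
  bd : ∀ f, TestOn D f → |T f| ≤ C * Real.sqrt (∫ z, f z ^ 2)

theorem cs_int {D : Set (ℝ × ℝ)} (hD : IsOpen D) (hb : Bornology.IsBounded D)
    {f : ℝ × ℝ → ℝ} (hf : TestOn D f) :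
    ∫ z, |f z| ≤ Real.sqrt (volume D).toReal * Real.sqrt (∫ z, f z ^ 2) := by
  have hvol : volume D ≠ ⊤ := hb.measure_lt_top.ne
  set A := (volume D).toReal with hA
  have hA0 : 0 ≤ A := ENNReal.toReal_nonneg
  have hzero : ∀ z, z ∉ D → f z = 0 := fun z hz => by
    by_contra h
    exact hz (hf.2.2 (subset_tsupport _ h))
  have hI0 : 0 ≤ ∫ z, |f z| := integral_nonneg fun z => abs_nonneg _
  rw [← Real.sqrt_mul hA0]
  refine Real.le_sqrt_of_sq_le ?_
  -- discriminant
  have h : ∀ t : ℝ, 0 ≤ A * (t * t) + (-(2 * ∫ z, |f z|)) * t + ∫ z, f z ^ 2 := by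
    intro t
    have i1 : Integrable (D.indicator fun _ => (1 : ℝ)) :=
      (integrable_indicator_iff hD.measurableSet).2 (integrableOn_const (hs := hvol))
    have e1 : ∫ z, D.indicator (fun _ => (1 : ℝ)) z = A := by
      rw [integral_indicator hD.measurableSet, setIntegral_const, smul_eq_mul, mul_one]; rfl
    have e2 : A * (t * t) + (-(2 * ∫ z, |f z|)) * t + ∫ z, f z ^ 2
        = ∫ z, ((t * t) * D.indicator (fun _ => (1 : ℝ)) z + (-(2 * t)) * |f z| + f z ^ 2) := by
      have j1 : Integrable (fun z => (t * t) * D.indicator (fun _ => (1 : ℝ)) z) := i1.const_mul _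
      have j2 : Integrable (fun z => (-(2 * t)) * |f z|) := hf.int.abs.const_mul _
      have j3 : Integrable (fun z => (t * t) * D.indicator (fun _ => (1 : ℝ)) z
        + (-(2 * t)) * |f z|) := j1.add j2
      rw [integral_add j3 hf.intSq, integral_add j1 j2, integral_const_mul,
        integral_const_mul, e1]
      ring
    rw [e2]
    refine integral_nonneg fun z => ?_
    by_cases hz : z ∈ D
    · simp only [Pi.zero_apply, indicator_of_mem hz]
      have : t * t * 1 + -(2 * t) * |f z| + f z ^ 2 = (t - |f z|) ^ 2 := by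
        rw [sub_sq, sq_abs]; ring
      rw [this]; positivity
    · simp [indicator_of_notMem hz, hzero z hz]
  have := discrim_le_zero h
  unfold discrim at this
  nlinarith

theorem BdFn.l2 {D : Set (ℝ × ℝ)} (hD : IsOpen D) (hb : Bornology.IsBounded D)
    {T : (ℝ × ℝ → ℝ) → ℝ} {C : ℝ} (hT : BdFn D T C) :
    L2Fn D T (|C| * Real.sqrt (volume D).toReal) where
  add := hT.add
  smul := hT.smul
  bd := fun f hf => by
    have h1 := hT.bd f hf
    have h2 : 0 ≤ ∫ z, |f z| := integral_nonneg fun z => abs_nonneg _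
    calc |T f| ≤ C * ∫ z, |f z| := h1
      _ ≤ |C| * ∫ z, |f z| := mul_le_mul_of_nonneg_right (le_abs_self _) h2
      _ ≤ |C| * (Real.sqrt (volume D).toReal * Real.sqrt (∫ z, f z ^ 2)) :=
          mul_le_mul_of_nonneg_left (cs_int hD hb hf) (abs_nonneg _)
      _ = _ := by ring

theorem rep {D : Set (ℝ × ℝ)} (hD : IsOpen D) (hb : Bornology.IsBounded D)
    {T : (ℝ × ℝ → ℝ) → ℝ} {C : ℝ} (hT : L2Fn D T C) :
    ∃ u : ℝ × ℝ → ℝ, Integrable u ∧ (∀ z, z ∉ D → u z = 0) ∧
      ∀ θ, TestOn D θ → T θ = ∫ z, u z * θ z := by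
  classical
  set μ : Measure (ℝ × ℝ) := volume.restrict D with hμ
  have hfin : volume D < ⊤ := hb.measure_lt_top
  have : IsFiniteMeasure μ := ⟨by rw [hμ, Measure.restrict_apply_univ]; exact hfin⟩
  let j : TS D →ₗ[ℝ] Lp ℝ 2 μ :=
    { toFun := fun f => (TestOn.memLp f.2 μ 2).toLp f.1
      map_add' := fun f g => rfl
      map_smul' := fun c f => rfl }
  let T' : TS D →ₗ[ℝ] ℝ :=
    { toFun := fun f => T f.1
      map_add' := fun f g => hT.add f.1 g.1 f.2 g.2
      map_smul' := fun c f => hT.smul c f.1 f.2 }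
  obtain ⟨K, hK0, hK⟩ : ∃ K : ℝ, 0 ≤ K ∧ ∀ f : TS D, |T' f| ≤ K * ‖j f‖ := by
    refine ⟨|C|, abs_nonneg _, fun f => ?_⟩
    have h1 : |T' f| ≤ C * Real.sqrt (∫ z, f.1 z ^ 2) := hT.bd f.1 f.2
    have hf : MemLp f.1 2 μ := TestOn.memLp f.2 μ 2
    have h2 : ∫ z, f.1 z ^ 2 = ∫ z, f.1 z ^ 2 ∂μ := by
      rw [hμ, setIntegral_eq_integral_of_forall_compl_eq_zero]
      intro z hz
      have : f.1 z = 0 := by
        by_contra h
        exact hz (f.2.2.2 (subset_tsupport _ h))
      simp [this]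
    have h3 : ∫ z, f.1 z ^ 2 ∂μ = ‖j f‖ ^ 2 := by
      rw [← real_inner_self_eq_norm_sq, L2.inner_def]
      refine integral_congr_ae ?_
      filter_upwards [MemLp.coeFn_toLp hf] with z hz
      have hz' : (j f : ℝ × ℝ → ℝ) z = f.1 z := hz
      rw [hz']
      simp [sq]
    rw [h2, h3, Real.sqrt_sq (norm_nonneg _)] at h1
    exact h1.trans (mul_le_mul_of_nonneg_right (le_abs_self _) (norm_nonneg _))
  have hker : LinearMap.ker j ≤ LinearMap.ker T' := by
    intro f hf
    rw [LinearMap.mem_ker] at hf ⊢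
    have := hK f
    rw [hf, norm_zero, mul_zero] at this
    exact abs_eq_zero.1 (le_antisymm this (abs_nonneg _))
  let T2 : LinearMap.range j →ₗ[ℝ] ℝ :=
    ((LinearMap.ker j).liftQ T' hker).comp (LinearMap.quotKerEquivRange j).symm.toLinearMap
  have hT2 : ∀ f : TS D, T2 ⟨j f, LinearMap.mem_range_self j f⟩ = T' f := by
    intro f
    have : (LinearMap.quotKerEquivRange j).symm ⟨j f, LinearMap.mem_range_self j f⟩
        = Submodule.Quotient.mk f := by
      rw [LinearEquiv.symm_apply_eq]; rfl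
    simp only [T2, LinearMap.comp_apply, LinearEquiv.coe_coe, this]
    rfl
  have hT2b : ∀ x : LinearMap.range j, ‖T2 x‖ ≤ K * ‖x‖ := by
    rintro ⟨x, f, rfl⟩
    rw [hT2 f]; exact hK f
  obtain ⟨g, hg, -⟩ := _root_.exists_extension_norm_eq (LinearMap.range j)
    (LinearMap.mkContinuous T2 K hT2b)
  set v : Lp ℝ 2 μ := (InnerProductSpace.toDual ℝ (Lp ℝ 2 μ)).symm g with hv
  have hvi : Integrable (v : ℝ × ℝ → ℝ) μ := (Lp.memLp v).integrable (by norm_num)
  refine ⟨D.indicator v, ?_, fun z hz => indicator_of_notMem hz _, fun θ hθ => ?_⟩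
  · rw [integrable_indicator_iff hD.measurableSet]; exact hvi
  · have e1 : T θ = g (j ⟨θ, hθ⟩) := by
      have := hg ⟨j ⟨θ, hθ⟩, LinearMap.mem_range_self j _⟩
      rw [this]
      exact (hT2 ⟨θ, hθ⟩).symm
    have e2 : g (j ⟨θ, hθ⟩) = inner ℝ v (j ⟨θ, hθ⟩) := by
      rw [hv, InnerProductSpace.toDual_symm_apply]
    rw [e1, e2, L2.inner_def]
    have e3 : ∀ z, D.indicator v z * θ z = D.indicator (fun z => v z * θ z) z := by
      intro z
      by_cases hz : z ∈ D <;> simp [hz]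
    simp_rw [e3]
    rw [integral_indicator hD.measurableSet]
    refine integral_congr_ae ?_
    have e4 : (j ⟨θ, hθ⟩ : ℝ × ℝ → ℝ) =ᵐ[μ] θ :=
      MemLp.coeFn_toLp (TestOn.memLp hθ μ 2)
    filter_upwards [e4] with z hz
    rw [hz]
    simp [mul_comm]

end Vale.Agent.P145.PT
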