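import Vale.Agent.P145.PT.CL
import Vale.Agent.P145.PT.LemB

/-!
Stability of the Dirichlet form under shrinking of outer approximations.
-/

namespace Vale.Agent.P145.PT

open MeasureTheory Set Filter Topology

theorem energy_sub {D : Set (ℝ × ℝ)} {f g : ℝ × ℝ → ℝ} (hf : TestOn D f) (hg : TestOn D g)
    (c : ℝ) : energy (fun z => f z + c * g z) = energy f
      + 2 * c * (∫ z, (dx f z * dx g z + dy f z * dy g z)) + c ^ 2 * energy g := by
  have i1 : Integrable (fun z => dx f z * dx g z + dy f z * dy g z) :=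
    (hf.dx.intMul hg.dx.cont).add (hf.dy.intMul hg.dy.cont)
  have hcg : Sm (fun z => c * g z) := contDiff_const.mul hg.sm
  have j2 : Integrable (fun z => 2 * c * (dx f z * dx g z + dy f z * dy g z)) := i1.const_mul _
  have j3 : Integrable (fun z => (dx f z ^ 2 + dy f z ^ 2)
    + 2 * c * (dx f z * dx g z + dy f z * dy g z)) := hf.intE.add j2
  unfold energy
  rw [← integral_const_mul, ← integral_const_mul, ← integral_add hf.intE j2,
    ← integral_add j3 (hg.intE.const_mul _)]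
  congr 1; funext z
  rw [dx_add hf.sm hcg, dy_add hf.sm hcg, dx_smul hg.sm, dy_smul hg.sm]
  ring

/-- Truncation of a near maximiser inside a circle. -/
theorem trunc {D D₀ : Set (ℝ × ℝ)} (hb : Bornology.IsBounded D) {φ ψ : ℝ × ℝ → ℝ}
    (hφ : TestOn D₀ φ) (hψ : TestOn D ψ) {τ : ℝ}
    (hJ : V D φ - τ ≤ (2 * ∫ z, φ z * ψ z) - energy ψ) {x : ℝ × ℝ} {r ε : ℝ} (hε : 0 < ε)
    (hc : ∀ p, sqn (p - x) = r ^ 2 → ψ p < ε) (hφ0 : ∀ p, sqn (p - x) < r ^ 2 → φ p = 0) :
    ∃ a, TestOn D a ∧ energy a ≤ τ ∧ ∀ p, sqn (p - x) < r ^ 2 → ψ p ≤ a p + 2 * ε := by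
  classical
  set a : ℝ × ℝ → ℝ := fun p => if sqn (p - x) < r ^ 2 then FF ε (ψ p) else 0 with ha
  have hcs : Continuous (fun p : ℝ × ℝ => sqn (p - x)) :=
    sqn_smooth.continuous.comp (continuous_id.sub continuous_const)
  -- local form
  have hloc1 : ∀ p, sqn (p - x) < r ^ 2 → a =ᶠ[𝓝 p] fun p => FF ε (ψ p) := by
    intro p hp
    filter_upwards [(isOpen_lt hcs continuous_const).mem_nhds hp] with y hy
    rw [ha]; simp only; rw [if_pos hy]
  have hloc2 : ∀ p, r ^ 2 < sqn (p - x) → a =ᶠ[𝓝 p] fun _ => 0 := by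
    intro p hp
    filter_upwards [(isOpen_lt continuous_const hcs).mem_nhds hp] with y hy
    rw [ha]; simp only; rw [if_neg (not_lt.2 (le_of_lt hy))]
  have hloc3 : ∀ p, sqn (p - x) = r ^ 2 → a =ᶠ[𝓝 p] fun _ => 0 := by
    intro p hp
    filter_upwards [(isOpen_lt hψ.cont continuous_const).mem_nhds (hc p hp)] with y hy
    rw [ha]; simp only
    split_ifs
    · exact FF_zero hε (le_of_lt hy)
    · rfl
  have hsm : Sm a := by
    refine contDiff_iff_contDiffAt.2 fun p => ?_
    rcases lt_trichotomy (sqn (p - x)) (r ^ 2) with h | h | h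
    · exact ((FF_smooth ε).comp hψ.sm).contDiffAt.congr_of_eventuallyEq (hloc1 p h)
    · exact contDiffAt_const.congr_of_eventuallyEq (hloc3 p h)
    · exact contDiffAt_const.congr_of_eventuallyEq (hloc2 p h)
  have hsupp : tsupport a ⊆ tsupport ψ := by
    refine closure_mono fun p hp => ?_
    intro h0
    refine hp ?_
    rw [ha]; simp only
    split_ifs
    · exact FF_zero hε (by rw [h0]; exact hε.le)
    · rfl
  have hat : TestOn D a := by
    refine ⟨hsm, ?_, hsupp.trans hψ.2.2⟩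
    exact hψ.2.1.of_isClosed_subset (isClosed_tsupport _) hsupp
  refine ⟨a, hat, ?_, fun p hp => ?_⟩
  · -- energy
    have hpt : ∀ p v, fderiv ℝ a p v ^ 2 ≤ fderiv ℝ ψ p v * fderiv ℝ a p v := by
      intro p v
      have hz : ∀ c : ℝ × ℝ → ℝ, c =ᶠ[𝓝 p] (fun _ => 0) → fderiv ℝ c p v = 0 := by
        intro c hc'
        rw [hc'.fderiv_eq]; simp
      rcases lt_trichotomy (sqn (p - x)) (r ^ 2) with h | h | h
      · rw [(hloc1 p h).fderiv_eq, fd_comp (FF_hasDeriv ε) hψ.sm]
        set b := Real.smoothTransition ((ψ p - ε) / ε)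
        have hb0 : 0 ≤ b := Real.smoothTransition.nonneg _
        have hb1 : b ≤ 1 := Real.smoothTransition.le_one _
        have : fderiv ℝ ψ p v * (b * fderiv ℝ ψ p v) - (b * fderiv ℝ ψ p v) ^ 2
            = b * (1 - b) * fderiv ℝ ψ p v ^ 2 := by ring
        nlinarith [mul_nonneg (mul_nonneg hb0 (sub_nonneg.2 hb1)) (sq_nonneg (fderiv ℝ ψ p v))]
      · rw [hz a (hloc3 p h)]; simp
      · rw [hz a (hloc2 p h)]; simp
    have hE1 : energy a ≤ ∫ z, (dx ψ z * dx a z + dy ψ z * dy a z) := by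
      refine integral_mono hat.intE ((hψ.dx.intMul hat.dx.cont).add
        (hψ.dy.intMul hat.dy.cont)) fun z => ?_
      exact add_le_add (hpt z (1, 0)) (hpt z (0, 1))
    have h1 := le_V hb hφ (hψ.add (hat.smul (-1)))
    rw [energy_sub hψ hat (-1)] at h1
    have h2 : ∫ z, φ z * (ψ z + -1 * a z) = ∫ z, φ z * ψ z := by
      congr 1; funext z
      by_cases hz : sqn (z - x) < r ^ 2
      · rw [hφ0 z hz]; simp
      · have : a z = 0 := by rw [ha]; simp only; rw [if_neg hz]
        rw [this]; simp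
    rw [h2] at h1
    linarith
  · have : a p = FF ε (ψ p) := by rw [ha]; simp only; rw [if_pos hp]
    rw [this]
    linarith [FF_ge hε (ψ p)]

/-- Cauchy-Schwarz. -/
theorem cs2 {D D' : Set (ℝ × ℝ)} {f g : ℝ × ℝ → ℝ} (hf : TestOn D f) (hg : TestOn D' g) :
    |∫ z, f z * g z| ≤ Real.sqrt (∫ z, f z ^ 2) * Real.sqrt (∫ z, g z ^ 2) := by
  have h0 : 0 ≤ ∫ z, f z ^ 2 := integral_nonneg fun z => sq_nonneg _
  rw [← Real.sqrt_mul h0, ← Real.sqrt_sq_eq_abs]
  refine Real.sqrt_le_sqrt ?_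
  have hfg : Integrable (fun z => f z * g z) := hf.intMul hg.cont
  have h : ∀ t : ℝ, 0 ≤ (∫ z, f z ^ 2) * (t * t) + (-(2 * ∫ z, f z * g z)) * t
      + ∫ z, g z ^ 2 := by
    intro t
    have j1 : Integrable (fun z => (t * t) * f z ^ 2) := hf.intSq.const_mul _
    have j2 : Integrable (fun z => (-(2 * t)) * (f z * g z)) := hfg.const_mul _
    have j3 : Integrable (fun z => (t * t) * f z ^ 2 + (-(2 * t)) * (f z * g z)) := j1.add j2
    have e2 : (∫ z, f z ^ 2) * (t * t) + (-(2 * ∫ z, f z * g z)) * t + ∫ z, g z ^ 2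
        = ∫ z, ((t * t) * f z ^ 2 + (-(2 * t)) * (f z * g z) + g z ^ 2) := by
      rw [integral_add j3 hg.intSq, integral_add j1 j2, integral_const_mul, integral_const_mul]
      ring
    rw [e2]
    refine integral_nonneg fun z => ?_
    have : (t * t) * f z ^ 2 + (-(2 * t)) * (f z * g z) + g z ^ 2 = (t * f z - g z) ^ 2 := by ring
    simp only [Pi.zero_apply, this]; positivity
  have := discrim_le_zero h
  unfold discrim at this
  nlinarith

/-- The exterior condition used for the stability. -/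
def Ext (D : Set (ℝ × ℝ)) : Prop :=
  ∀ R : ℝ, 0 < R → ∃ s : ℝ, 0 < s ∧ ∃ ρ : ℝ, 0 < ρ ∧ ∀ x ∈ D, dd D x < ρ → ∀ r : ℝ, R ≤ r →
    ∃ p, sqn (p - x) = r ^ 2 ∧ p ∉ Metric.thickening s D

theorem sqn_le_of_norm (y : ℝ × ℝ) : sqn y ≤ 2 * ‖y‖ ^ 2 := by
  have h1 := norm_fst_le y
  have h2 := norm_snd_le y
  rw [Real.norm_eq_abs] at h1 h2
  have h3 : y.1 ^ 2 ≤ ‖y‖ ^ 2 := by
    rw [← sq_abs y.1]; exact pow_le_pow_left₀ (abs_nonneg _) h1 2
  have h4 : y.2 ^ 2 ≤ ‖y‖ ^ 2 := by
    rw [← sq_abs y.2]; exact pow_le_pow_left₀ (abs_nonneg _) h2 2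
  unfold sqn; linarith

theorem norm_sq_le_sqn (y : ℝ × ℝ) : ‖y‖ ^ 2 ≤ sqn y := by
  have h := norm_le_of_sqn (Real.sqrt_nonneg (sqn y)) (y := y)
    (by rw [Real.sq_sqrt (sqn_nonneg y)])
  calc ‖y‖ ^ 2 ≤ Real.sqrt (sqn y) ^ 2 := pow_le_pow_left₀ (norm_nonneg _) h 2
    _ = sqn y := Real.sq_sqrt (sqn_nonneg y)

theorem stab {D : Set (ℝ × ℝ)} (hD : IsOpen D) (hb : Bornology.IsBounded D) (hext : Ext D)
    {φ : ℝ × ℝ → ℝ} (hφ : TestOn D φ) (hφ0 : ∀ z, 0 ≤ φ z) {η : ℝ} (hη : 0 < η) :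
    ∃ s : ℝ, 0 < s ∧ V (Metric.thickening s D) φ ≤ V D φ + η := by
  by_contra hcon
  push Not at hcon
  -- the outer domains
  set s : ℕ → ℝ := fun n => 1 / ((n : ℝ) + 1) with hs
  have hs0 : ∀ n, 0 < s n := fun n => by positivity
  have hs1 : ∀ n, s n ≤ 1 := fun n => by
    rw [hs]; simp only; rw [div_le_one (by positivity)]
    linarith [(Nat.cast_nonneg n : (0 : ℝ) ≤ n)]
  have hst : Tendsto s atTop (𝓝 0) := tendsto_one_div_add_atTop_nhds_zero_nat
  set E : ℕ → Set (ℝ × ℝ) := fun n => Metric.thickening (s n) D with hE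
  have hEb : ∀ n, Bornology.IsBounded (E n) := fun n => hb.thickening
  have hDE : ∀ n, D ⊆ E n := fun n => Metric.self_subset_thickening (hs0 n) D
  have hE0 : ∀ n, E n ⊆ Metric.thickening 1 D := fun n => Metric.thickening_mono (hs1 n) D
  have hE0b : Bornology.IsBounded (Metric.thickening (1 : ℝ) D) := hb.thickening
  have hVn : ∀ n, V D φ + η < V (E n) φ := fun n => hcon (s n) (hs0 n)
  set V0 := V (Metric.thickening (1 : ℝ) D) φ with hV0
  have hVn0 : ∀ n, V (E n) φ ≤ V0 := fun n => V_mono hE0b (hE0 n) hφ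
  have hVD : 0 ≤ V D φ := V_nonneg hb hφ
  -- near maximisers
  have hψex : ∀ n, ∃ ψ, TestOn (E n) ψ ∧ V (E n) φ - s n ≤ (2 * ∫ z, φ z * ψ z) - energy ψ := by
    intro n
    have : Nonempty {ψ : ℝ × ℝ → ℝ // TestOn (E n) ψ} := ⟨⟨_, TestOn.zero _⟩⟩
    obtain ⟨ψ, hψ⟩ := exists_lt_of_lt_ciSup (f := fun ψ : {ψ : ℝ × ℝ → ℝ // TestOn (E n) ψ} =>
      (2 * ∫ z, φ z * ψ.1 z) - energy ψ.1) (b := V (E n) φ - s n)
      (by have := hs0 n; unfold V; linarith)
    exact ⟨ψ.1, ψ.2, hψ.le⟩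
  choose ψ hψ hJ using hψex
  have hI2 : ∀ n, (∫ z, φ z * ψ n z) ^ 2 ≤ V (E n) φ * energy (ψ n) := fun n =>
    pair_le (hEb n) hφ (hψ n)
  have hen : ∀ n, energy (ψ n) ≤ 2 + 4 * V0 := by
    intro n
    have h1 := hI2 n
    have h2 := hJ n
    have h3 := energy_nonneg (ψ n)
    have h4 := hVn n
    have h5 := hVn0 n
    have h6 := hs1 n
    by_contra hc
    push Not at hc
    set I := ∫ z, φ z * ψ n z
    set e := energy (ψ n)
    have h7 : e - 1 ≤ 2 * I := by linarith
    have h8 : (e - 1) ^ 2 ≤ 4 * I ^ 2 := by nlinarith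
    have h9 : 4 * I ^ 2 ≤ 4 * (V0 * e) := by nlinarith
    nlinarith
  have hIlow : ∀ n, V (E n) φ - Real.sqrt (s n * V0) ≤ ∫ z, φ z * ψ n z := by
    intro n
    have h1 := hI2 n
    have h2 := hJ n
    have h4 := hVn n
    have h5 := hVn0 n
    have h6 := hs0 n
    set I := ∫ z, φ z * ψ n z
    set e := energy (ψ n)
    set v := V (E n) φ
    have hv : 0 < v := by linarith
    by_contra hc
    push Not at hc
    have h7 : Real.sqrt (s n * V0) < v - I := by linarith
    have h8 : s n * V0 < (v - I) ^ 2 := by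
      have h80 : 0 ≤ s n * V0 := mul_nonneg h6.le (by linarith)
      calc s n * V0 = Real.sqrt (s n * V0) ^ 2 := (Real.sq_sqrt h80).symm
        _ < (v - I) ^ 2 := pow_lt_pow_left₀ h7 (Real.sqrt_nonneg _) two_ne_zero
    have h9 : v * (v - s n + e) ≤ v * (2 * I) := mul_le_mul_of_nonneg_left (by linarith) hv.le
    nlinarith
  -- Poincaré
  obtain ⟨R, hR0, hR⟩ := bdd_fst hE0b
  have hψ2 : ∀ n, ∫ z, ψ n z ^ 2 ≤ 4 * R ^ 2 * (2 + 4 * V0) := by
    intro n
    refine (poincare (fun z hz => hR z (hE0 n hz)) (hψ n)).trans ?_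
    exact mul_le_mul_of_nonneg_left ((energy_ge_dx (hψ n)).trans (hen n)) (by positivity)
  set K := Real.sqrt (4 * R ^ 2 * (2 + 4 * V0)) with hK
  have hpair : ∀ θ, TestOn D θ → ∀ n, |∫ z, θ z * ψ n z| ≤ K * Real.sqrt (∫ z, θ z ^ 2) := by
    intro θ hθ n
    rw [mul_comm]
    refine (cs2 hθ (hψ n)).trans ?_
    exact mul_le_mul_of_nonneg_left (Real.sqrt_le_sqrt (hψ2 n)) (Real.sqrt_nonneg _)
  -- ultrafilter limits
  set 𝒰 : Ultrafilter ℕ := Filter.hyperfilter ℕ with h𝒰
  have h𝒰le : (𝒰 : Filter ℕ) ≤ atTop := Nat.hyperfilter_le_atTop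
  set T : (ℝ × ℝ → ℝ) → ℝ := fun θ => limUnder (𝒰 : Filter ℕ) (fun n => ∫ z, θ z * ψ n z) with hT
  have hlim : ∀ θ, TestOn D θ → Tendsto (fun n => ∫ z, θ z * ψ n z) (𝒰 : Filter ℕ) (𝓝 (T θ)) := by
    intro θ hθ
    refine tendsto_nhds_limUnder ?_
    set B := K * Real.sqrt (∫ z, θ z ^ 2)
    obtain ⟨L, -, hL⟩ := (isCompact_closedBall (0 : ℝ) B).ultrafilter_le_nhds
      (𝒰.map (fun n => ∫ z, θ z * ψ n z)) (by
        rw [Filter.le_principal_iff, Ultrafilter.mem_coe, Ultrafilter.mem_map]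
        refine Filter.mem_of_superset Filter.univ_mem fun n _ => ?_
        rw [mem_preimage, mem_closedBall_zero_iff, Real.norm_eq_abs]
        exact hpair θ hθ n)
    exact ⟨L, hL⟩
  have hneb : (𝒰 : Filter ℕ).NeBot := 𝒰.neBot
  have hTf : L2Fn D T K :=
    { add := fun f g hf hg => by
        refine tendsto_nhds_unique (hlim _ (hf.add hg)) ?_
        refine ((hlim f hf).add (hlim g hg)).congr fun n => ?_
        rw [← integral_add (hf.intMul (hψ n).cont) (hg.intMul (hψ n).cont)]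
        congr 1; funext z; ring
      smul := fun c f hf => by
        refine tendsto_nhds_unique (hlim _ (hf.smul c)) ?_
        refine ((hlim f hf).const_mul c).congr fun n => ?_
        rw [← integral_const_mul]
        congr 1; funext z; ring
      bd := fun f hf => le_of_tendsto (hlim f hf).abs (Eventually.of_forall fun n => hpair f hf n) }
  have hst𝒰 : Tendsto s (𝒰 : Filter ℕ) (𝓝 0) := hst.mono_left h𝒰le
  have hsqrt : ∀ c : ℝ, Tendsto (fun n => Real.sqrt (s n * c)) (𝒰 : Filter ℕ) (𝓝 0) := by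
    intro c
    have h1 : Tendsto (fun n => s n * c) (𝒰 : Filter ℕ) (𝓝 (0 * c)) := hst𝒰.mul_const c
    rw [zero_mul] at h1
    have h2 := (Real.continuous_sqrt.tendsto 0).comp h1
    rwa [Real.sqrt_zero] at h2
  -- the equation
  have heq : ∀ χ, TestOn D χ → T (lap χ) = - ∫ z, χ z * φ z := by
    intro χ hχ
    have hb2 : ∀ n, |(∫ z, φ z * χ z) - ∫ z, (dx (ψ n) z * dx χ z + dy (ψ n) z * dy χ z)|
        ≤ Real.sqrt (s n * energy χ) := by
      intro n
      have hχn : TestOn (E n) χ := hχ.mono (hDE n)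
      set b := (∫ z, φ z * χ z) - ∫ z, (dx (ψ n) z * dx χ z + dy (ψ n) z * dy χ z) with hbdef
      have h : ∀ t : ℝ, 0 ≤ energy χ * (t * t) + (-(2 * b)) * t + s n := by
        intro t
        have h1 := le_V (hEb n) hφ ((hψ n).add (hχn.smul t))
        rw [energy_sub (hψ n) hχn t] at h1
        have h2 : ∫ z, φ z * (ψ n z + t * χ z) = (∫ z, φ z * ψ n z) + t * ∫ z, φ z * χ z := by
          rw [← integral_const_mul, ← integral_add (hφ.intMul (hψ n).cont)
            ((hφ.intMul hχ.cont).const_mul _)]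
          congr 1; funext z; ring
        rw [h2] at h1
        have h3 := hJ n
        rw [hbdef]
        nlinarith
      have hd := discrim_le_zero h
      unfold discrim at hd
      rw [← Real.sqrt_sq_eq_abs]
      refine Real.sqrt_le_sqrt ?_
      nlinarith
    refine tendsto_nhds_unique (hlim _ hχ.lap) ?_
    have h1 : ∀ n, ∫ z, lap χ z * ψ n z
        = ((∫ z, φ z * χ z) - ∫ z, (dx (ψ n) z * dx χ z + dy (ψ n) z * dy χ z))
          - ∫ z, χ z * φ z := by
      intro n
      have h2 : ∫ z, lap χ z * ψ n z = ∫ z, ψ n z * lap χ z := by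
        congr 1; funext z; ring
      have h3 : ∫ z, χ z * φ z = ∫ z, φ z * χ z := by congr 1; funext z; ring
      rw [h2, h3, green_id (hψ n) hχ.sm]; ring
    simp_rw [h1]
    have h4 : Tendsto (fun n => (∫ z, φ z * χ z)
        - ∫ z, (dx (ψ n) z * dx χ z + dy (ψ n) z * dy χ z)) (𝒰 : Filter ℕ) (𝓝 0) :=
      squeeze_zero_norm (fun n => by rw [Real.norm_eq_abs]; exact hb2 n) (hsqrt (energy χ))
    simpa using h4.sub_const (∫ z, χ z * φ z)
  -- decay
  have hdec : ∀ ε : ℝ, 0 < ε → ∃ r : ℝ, 0 < r ∧ ∀ x ∈ D, dd D x < r →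
      T (bump (dd D x / 2) x) ≤ ε := by
    intro ε hε
    obtain ⟨rφ, hrφ, hφz⟩ := exists_low hD hb hφ
    set δ : ℝ := ε / 16 with hδ
    have hδ0 : 0 < δ := by positivity
    set E0 : ℝ := 2 + 4 * V0 with hE0'
    set R₂ : ℝ := rφ / 4 with hR₂
    have hR₂0 : 0 < R₂ := by positivity
    set L : ℝ := E0 / δ ^ 2 + 1 with hL
    have hE00 : 0 ≤ E0 := (energy_nonneg (ψ 0)).trans (hen 0)
    have hL1 : 0 < L := by positivity
    set R₁ : ℝ := R₂ * Real.exp (-L) with hR₁
    have hR₁0 : 0 < R₁ := by positivity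
    have hR₁₂ : R₁ < R₂ := by
      rw [hR₁]
      have : Real.exp (-L) < 1 := by rw [← Real.exp_zero]; exact Real.exp_lt_exp.2 (by linarith)
      nlinarith
    have hlog : Real.log (R₂ / R₁) = L := by
      rw [hR₁, div_mul_eq_div_div, div_self hR₂0.ne', one_div, ← Real.exp_neg, neg_neg,
        Real.log_exp]
    obtain ⟨s', hs', ρ, hρ, hx⟩ := hext R₁ hR₁0
    refine ⟨min (min ρ R₁) R₂, lt_min (lt_min hρ hR₁0) hR₂0, fun x hxD hxr => ?_⟩
    have hx1 : dd D x < ρ := lt_of_lt_of_le hxr ((min_le_left _ _).trans (min_le_left _ _))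
    have hx2 : dd D x < R₁ := lt_of_lt_of_le hxr ((min_le_left _ _).trans (min_le_right _ _))
    have hx3 : dd D x < R₂ := lt_of_lt_of_le hxr (min_le_right _ _)
    have hxp : 0 < dd D x := (dd_pos hD hb).2 hxD
    have hbt : TestOn D (bump (dd D x / 2) x) :=
      bump_test (by linarith) (ball_sub (by linarith))
    have hbi : ∫ z, bump (dd D x / 2) x z = 1 := bump_int (by linarith) x
    set β := bump (dd D x / 2) x with hβ
    have hev : ∀ᶠ n in (𝒰 : Filter ℕ), ∫ z, β z * ψ n z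
        ≤ ε + Real.sqrt (∫ z, β z ^ 2) * Real.sqrt (s n * (4 * R ^ 2)) := by
      filter_upwards [hst𝒰.eventually (gt_mem_nhds hs')] with n hn
      have hEs : E n ⊆ Metric.thickening s' D := Metric.thickening_mono hn.le D
      have hvan : ∀ p, p ∉ Metric.thickening s' D → ψ n p = 0 := by
        intro p hp
        by_contra h
        exact hp (hEs ((hψ n).2.2 (subset_tsupport _ h)))
      obtain ⟨r, hr, hrθ⟩ := courant (hψ n) x hR₁0 hR₁₂ hδ0 (by
          refine lt_of_le_of_lt (hen n) ?_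
          rw [hlog, hL, mul_add, mul_one, mul_div_cancel₀ _ (by positivity)]
          have : 0 < δ ^ 2 := by positivity
          linarith) (fun r hr => by
          obtain ⟨p, hp1, hp2⟩ := hx x hxD hx1 r hr.1.le
          obtain ⟨θ, hθ, hpθ⟩ := exists_angle x p (hR₁0.trans hr.1).le hp1
          exact ⟨θ, hθ, by rw [← hpθ]; exact hvan p hp2⟩)
      have hr0 : 0 < r := hR₁0.trans hr.1
      have hnorm : ∀ p, sqn (p - x) < r ^ 2 → ‖p - x‖ < r := by
        intro p hp
        have := (norm_sq_le_sqn (p - x)).trans_lt hp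
        exact lt_of_pow_lt_pow_left₀ 2 hr0.le this
      obtain ⟨a, ha, hea, hpa⟩ := trunc (hEb n) hφ (hψ n) (hJ n) (x := x) (r := r)
        (ε := ε / 2) (by positivity) (fun p hp => by
          obtain ⟨θ, hθ, hpθ⟩ := exists_angle x p hr0.le hp
          have := hrθ θ hθ
          rw [← hpθ] at this
          have h1 := (abs_le.1 this).2
          rw [hδ] at h1
          linarith) (fun p hp => by
          refine hφz p ?_
          have h1 := dd_le_add D p x
          have h2 := hnorm p hp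
          rw [dist_eq_norm] at h1
          have h3 := hr.2
          linarith)
      have hbp : ∀ z, β z * ψ n z ≤ β z * (a z + ε) := by
        intro z
        by_cases hz : dd D x / 2 < dist z x
        · rw [hβ, bump_zero (by linarith) hz]; simp
        · push Not at hz
          have h1 : sqn (z - x) < r ^ 2 := by
            rw [dist_eq_norm] at hz
            have h2 := sqn_le_of_norm (z - x)
            have h3 : ‖z - x‖ ^ 2 ≤ (dd D x / 2) ^ 2 :=
              pow_le_pow_left₀ (norm_nonneg _) hz 2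
            have h4 : dd D x < r := hx2.trans hr.1
            nlinarith
          have h5 := hpa z h1
          refine mul_le_mul_of_nonneg_left ?_ (bump_nonneg _ _ _)
          linarith
      have hba : ∫ z, β z * a z ≤ Real.sqrt (∫ z, β z ^ 2) * Real.sqrt (s n * (4 * R ^ 2)) := by
        refine (le_abs_self _).trans ((cs2 hbt ha).trans ?_)
        refine mul_le_mul_of_nonneg_left (Real.sqrt_le_sqrt ?_) (Real.sqrt_nonneg _)
        have h1 := poincare (fun z hz => hR z (hE0 n hz)) ha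
        have h2 := energy_ge_dx ha
        have h3 : 0 ≤ 4 * R ^ 2 := by positivity
        nlinarith
      calc ∫ z, β z * ψ n z ≤ ∫ z, β z * (a z + ε) :=
            integral_mono (hbt.intMul (hψ n).cont) (hbt.intMul (ha.cont.add continuous_const)) hbp
        _ = (∫ z, β z * a z) + ε := by
            have : ∀ z, β z * (a z + ε) = β z * a z + ε * β z := fun z => by ring
            simp_rw [this]
            rw [integral_add (hbt.intMul ha.cont) (hbt.int.const_mul _), integral_const_mul, hbi,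
              mul_one]
        _ ≤ _ := by linarith
    have hr1 : Tendsto (fun n => ε + Real.sqrt (∫ z, β z ^ 2) * Real.sqrt (s n * (4 * R ^ 2)))
        (𝒰 : Filter ℕ) (𝓝 (ε + Real.sqrt (∫ z, β z ^ 2) * 0)) :=
      ((hsqrt (4 * R ^ 2)).const_mul _).const_add _
    rw [mul_zero, add_zero] at hr1
    exact le_of_tendsto_of_tendsto (hlim β hbt) hr1 hev
  -- T φ is large
  have hTφ : V D φ + η ≤ T φ := by
    have h1 : Tendsto (fun n => V D φ + η - Real.sqrt (s n * V0)) (𝒰 : Filter ℕ)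
        (𝓝 (V D φ + η - 0)) := (hsqrt V0).const_sub _
    rw [sub_zero] at h1
    refine le_of_tendsto_of_tendsto h1 (hlim φ hφ) (Eventually.of_forall fun n => ?_)
    have h2 := hIlow n
    have h3 := hVn n
    simp only
    linarith
  obtain ⟨χ, hχ, hχE, hχT⟩ := lemB hD hb hTf hφ heq hdec hφ hφ0 (show 0 < η / 4 by linarith)
  have hfin := le_V hb hφ hχ
  linarith

end Vale.Agent.P145.PT
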